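import Vale.Agent.P270L.A.Sys
import Vale.Agent.P270L.A.Dro

/-!
# P270L, block A: row CAN
-/

open scoped Topology
open Set Filter
open Vale.Agent.P297 (Place)
open Vale.Agent.P285.H281.FD (Bd IsLB)
open Vale.Agent.P277Z Vale.Agent.P277Z.Lo Vale.Agent.P285N Vale.Agent.P281Z

noncomputable section

namespace Vale.Agent.P270L

namespace CanH

variable {n : ℕ} {K : Type} [Field K] [Algebra ℂ K] {M : Gm n K}

/-- a line bundle with a meromorphic section is the line bundle of its divisor -/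
theorem rep_iso {L : Bd M.W} {D : P277Z.Div K} {s : L.ι → M.W → ℂ} {c : Place K → ℤ}
    (h : M.Rep L D s) (hc : ∀ P, M.Pr P → D P = c P) : LIso n L (M.tb c) := by
  have key : ∀ i (f : K) y, y ∈ L.U i → y ∈ (M.tb c).U f → ∃ a, Hol n a y ∧ a y ≠ 0 ∧
      ∀ᶠ z in gen {y}, s i z * M.val f z = a z := fun i f y hi hf => by
    obtain ⟨t, u, h1, h2, h3, h4, h5⟩ := h.loc (M.pt y) i hi
    obtain ⟨h6, h7⟩ := Lb.unit_of (SysH.loc M) (x := M.pt y) (mul_ne_zero h1 hf.1) fun P hP => by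
      have a := hf.2 P hP
      have b : (c P : ℝ) = P.ord t := (hc P ⟨_, hP⟩).symm.trans (h2 P hP)
      rw [P.ord_mul h1 hf.1, ← Int.cast_injective b]
      omega
    refine ⟨fun z => u z * M.val (t * f) z, hol_mul h3 h6, mul_ne_zero h4 h7, ?_⟩
    filter_upwards [h5, M.at_pt (M.val_mul t f) (M.pt y)] with z k1 k2
    rw [k1, k2, mul_assoc]
  refine ⟨fun i f => Lb.reg fun z => s i z * M.val f z, fun i f y hi hf => ?_,
    fun i f y hi hf => ?_, fun i i' (f f' : K) y hi hi' hf hf' => ?_⟩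
  · obtain ⟨a, h1, -, h3⟩ := key i f y hi hf
    exact h1.congr (Lb.reg_near h1 h3)
  · obtain ⟨a, h1, h2, h3⟩ := key i f y hi hf
    rwa [Lb.reg_eq (hol_cont h1) h3]
  · obtain ⟨a, h1, -, h3⟩ := key i f y hi hf
    obtain ⟨b, k1, -, k3⟩ := key i' f' y hi' hf'
    have m : f' / f ∈ M.O (M.pt y) := (SysH.loc M).mem _ _ fun P hP => by
      have := hf.2 P hP
      have := hf'.2 P hP
      rw [P.ord_div hf'.1 hf.1]
      omega
    rw [Lb.reg_eq (hol_cont h1) h3, Lb.reg_eq (hol_cont k1) k3]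
    refine Lo.eq_of_gen (a := fun z => a z * M.val (f' / f) z) (b := fun z => L.g i i' z * b z)
      (hol_cont (hol_mul h1 m)) (hol_cont (hol_mul (h.lb.holo i i' y hi hi') k1)) ?_
    filter_upwards [h3, k3, M.at_pt (M.val_mul f (f' / f)) (M.pt y),
      gen_of_nhds ((h.lb.isOpen i).mem_nhds hi), gen_of_nhds ((h.lb.isOpen i').mem_nhds hi')]
      with z e1 e2 e3 e4 e5
    rw [mul_div_cancel₀ _ hf.1] at e3
    rw [← e1, ← e2, mul_assoc, ← e3, h.chg i i' z e4 e5, mul_assoc]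

theorem lb {L : Bd M.W} (h : M.LB L) : IsLB n L :=
  ⟨h.isOpen, fun x => h.cover x (M.pt x).2, fun i j e x he hi hj =>
    (h.holo i j x hi hj e he).contDiffAt, h.ne_zero, h.cocycle⟩

end CanH

/-- row CAN -/
theorem can_of (hK : KAP) (T : TB) : CAN := by
  intro n K _ _ M y δ hy
  have hL := SysH.loc M
  obtain ⟨x₀, -⟩ := M.conn.nonempty
  obtain ⟨t₀, h₀⟩ := hL.coord (M.pt x₀)
  obtain ⟨D₀, h1, h2, -⟩ := dro n K M x₀ t₀ h₀
  obtain ⟨κ, hκ⟩ := hL.can _ t₀ y _ h₀ (h1 y) (hK.ne ℂ K n t₀ y D₀ δ h2 hy)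
  have e : ∀ P, M.Pr P → κ P = kap ℂ y P := fun P hP => by
    obtain ⟨x, hx⟩ := Gm.pr_iff.1 hP
    obtain ⟨t, ht⟩ := hL.coord (M.pt x)
    obtain ⟨D, k1, -, k2⟩ := dro n K M x t ht
    rw [hK.eq ℂ K n t y D P (k2 P hx), (hκ.2 _ t _ ht (k1 y)).2 P hx]
  have f : M.Fs (kap ℂ y) := κ.support.finite_toSet.subset fun P hP =>
    Finsupp.mem_support_iff.2 (by rw [e P hP.1]; exact_mod_cast hP.2)
  have r := (Ct.lbd n 0 K M.toMdl M.prj).can y κ hκ
  exact ⟨f, ((cls_eq (CanH.lb r.lb) (T.lb n K M _ f)).2 (CanH.rep_iso r e)).symm⟩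

end Vale.Agent.P270L
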