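import Vale.Agent.P270L.ADefs
import Vale.Agent.P280Z.Ld.Iso

/-!
# P270L, block A: Chern classes of divisors
-/

open Set
open Vale.Agent.P297 (Place)
open Vale.Agent.P285.H281.FD (Bd IsLB)
open Vale.Agent.P281Z Vale.Agent.P280Z
open Vale.Agent.P280Z.Co (ct ct_ok)

noncomputable section

namespace Vale.Agent.P270L

theorem ex_cp {n : ℕ} (V : Mf n) :
    ∃ c : Pic n V.X →+ ct.H V, ∀ L, IsLB n L → c (cls n L) = ct.c1 V L := by
  refine ⟨AddMonoidHom.mk' (Quotient.lift (fun L => ct.c1 V L.1) fun a b h => h.elim fun t ht =>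
    (Ld.iso V _ _ t a.2 b.2 ht).1 ct ct_ok.c1) fun a b => ?_, fun L h => by rw [cls_mk h]; rfl⟩
  induction a using Pic.ind with | _ L h => ?_
  induction b using Pic.ind with | _ M h' => ?_
  exact ct_ok.c1.mul V L M h h'

theorem c1_cls {n : ℕ} {V : Mf n} {L L' : Bd V.X} (h : IsLB n L) (h' : IsLB n L')
    (e : cls n L = cls n L') : ct.c1 V L = ct.c1 V L' := by
  obtain ⟨c, hc⟩ := ex_cp V
  rw [← hc L h, ← hc L' h', e]

namespace Gm

variable {n : ℕ} {K : Type} [Field K] [Algebra ℂ K] {M : Gm n K} {c c' : Place K → ℤ}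

theorem Fs.of (h : M.Fs c) (h' : M.Fs c') {d : Place K → ℤ}
    (k : ∀ P, c P = 0 → c' P = 0 → d P = 0) : M.Fs d :=
  (Set.Finite.union h h').subset fun P hP => by
    by_contra e
    simp only [mem_union, mem_ofPred_eq, not_or, not_and, not_not] at e
    exact hP.2 (k P (e.1 hP.1) (e.2 hP.1))

theorem Fs.add (h : M.Fs c) (h' : M.Fs c') : M.Fs (c + c') :=
  h.of h' fun P a b => by rw [Pi.add_apply, a, b, add_zero]

theorem Fs.smul (h : M.Fs c) (m : ℤ) : M.Fs (m • c) :=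
  h.of h fun P a _ => by rw [Pi.smul_apply, a, smul_zero]

theorem cl_add (T : TB) (h : M.Fs c) (h' : M.Fs c') : M.cl (c + c') = M.cl c + M.cl c' := by
  obtain ⟨f, hf⟩ := ex_cp M.V
  rw [cl, cl, cl, ← hf _ (T.lb _ _ M _ (h.add h')), ← hf _ (T.lb _ _ M _ h),
    ← hf _ (T.lb _ _ M _ h'), T.add _ _ M _ _ h h', map_add]

theorem cl_smul (T : TB) (h : M.Fs c) (m : ℤ) : M.cl (m • c) = (m : ℝ) • M.cl c := by
  obtain ⟨f, hf⟩ := ex_cp M.V
  rw [cl, cl, ← hf _ (T.lb _ _ M _ (h.smul m)), ← hf _ (T.lb _ _ M _ h),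
    T.smul _ _ M _ _ h, map_zsmul, Int.cast_smul_eq_zsmul]

theorem cl_congr (T : TB) (h : ∀ P, M.Pr P → c P = c' P) : M.cl c = M.cl c' := by
  rw [cl, cl, T.congr _ _ M c c' h]

variable {ι : Type} [Fintype ι]

omit [Algebra ℂ K] in
theorem cf_eq (x : ι → K) (D : Cd K) : (fun P => cf x P D) =
    (fun P => mx P D.s) + (-D.c : ℤ) • fun P => mx P x := by
  funext P
  simp only [cf, Pi.add_apply, Pi.smul_apply, smul_eq_mul]
  ring

theorem fs_cf (S : SYS) (x : ι → K) (D : Cd K) : M.Fs fun P => cf x P D :=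
  cf_eq x D ▸ (S.fs _ _ M _ D.s).add ((S.fs _ _ M _ x).smul _)

theorem cl_cf (T : TB) (S : SYS) (x : ι → K) (D : Cd K) : (M.cl fun P => cf x P D) =
    (M.cl fun P => mx P D.s) - (D.c : ℝ) • M.cl fun P => mx P x := by
  rw [cf_eq, cl_add T (S.fs _ _ M _ D.s) ((S.fs _ _ M _ x).smul _),
    cl_smul T (S.fs _ _ M _ x), sub_eq_add_neg, ← neg_smul]
  norm_num

theorem Pn.ne {σ : Type} {s : σ → K} (h : M.Pn s) : s ≠ 0 := by
  obtain ⟨y, -⟩ := M.conn.nonempty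
  obtain ⟨l, hl, -⟩ := h y
  exact fun e => hl (congrFun e l)

theorem Nc.mono {T T' : Set (Place K)} (h : M.Nc T) (k : T' ⊆ T) : M.Nc T' := fun y =>
  (h y).imp fun _ a => ⟨a.1, fun P hP => a.2 P (k hP)⟩

theorem pr_iff {P : Place K} : M.Pr P ↔ ∃ y, M.On (M.pt y) P :=
  ⟨fun ⟨x, h⟩ => ⟨x, h⟩, fun ⟨_, h⟩ => ⟨_, h⟩⟩

theorem pr_const {P : Place K} (h : M.Pr P) (a : ℂ) : algebraMap ℂ K a ∈ P.ring :=
  let ⟨x, _, k⟩ := h
  k.le _ ((M.O x).algebraMap_mem a)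

end Gm

end Vale.Agent.P270L
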