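import Vale.Agent.P270L.ADefs
import Vale.Agent.P270L.Md.Model

/-!
# P270L, block A, rows MODEL and CTR
-/

open Vale.Agent.P285N

namespace Vale.Agent.P270L

/-- **MODEL** -/
theorem model : MODEL := fun _ _ _ _ _ _ hy _ =>
  let ⟨_, _, hW, ⟨e⟩⟩ := Md.iso hy
  ⟨⟨Md.tr (mdl (alg hW)) e, rfl, geo_proj hW⟩⟩

/-- **CTR** -/
theorem ctr : CTR := fun _ _ _ _ M U h =>
  let ⟨x, hx⟩ := Md.ctr M.prj U.valuation fun c => (U.valuation_le_one_iff _).2 (h c)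
  ⟨x, fun f hf => (U.valuation_le_one_iff _).1 (hx f hf)⟩

end Vale.Agent.P270L
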