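import Vale.Agent.P270L.A.Cl
import Vale.Agent.P270L.A.Dro
import Vale.Agent.P270L.A.Model

/-!
# P270L, block A: row CRV
-/

open scoped Manifold ContDiff Topology
open Set Filter IntermediateField
open Vale.Agent.P272.K (Cm Chart At)
open Vale.Agent.P297 (Place PlaceOver IsFF)
open Vale.Agent.P285.H281.FD (NZ)
open Vale.Agent.P277Z Vale.Agent.P285N Vale.Agent.P281Z
open Vale.Agent.P277Z.Slc (dd)
open Vale.Agent.P280Z.Co (ct ct_ok)

noncomputable section

namespace Vale.Agent.P270L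

namespace CrvH

/-- zeros are isolated -/
theorem isol {W : Type} [TopologicalSpace W] [ChartedSpace (Cm 1) W] {a : W → ℂ} {y : W}
    (h : Hol 1 a y) (k : ¬ ∀ᶠ z in 𝓝 y, a z = 0) : ∀ᶠ z in 𝓝 y, a z = 0 → z = y := by
  have he := Lo.at_chartAt (n := 1) y
  generalize chartAt (Cm 1) y = e at he
  let ε := ContinuousLinearEquiv.funUnique (Fin 1) ℂ ℂ
  have h1 : AnalyticAt ℂ (fun c => a (e.symm (ε.symm c))) (ε (e y)) :=
    (h e he).fun_comp_of_eq (ε.symm.analyticAt _) (ε.symm_apply_apply _)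
  have h2 : Tendsto (fun z => ε (e z)) (𝓝 y) (𝓝 (ε (e y))) :=
    ε.continuousAt.tendsto.comp (e.continuousAt he.2)
  rcases h1.eventually_eq_zero_or_eventually_ne_zero with q | q
  · refine absurd ?_ k
    filter_upwards [h2.eventually q, e.open_source.mem_nhds he.2] with z k1 k2
    rwa [ε.symm_apply_apply, e.left_inv k2] at k1
  · filter_upwards [h2.eventually (eventually_nhdsWithin_iff.1 q), e.open_source.mem_nhds he.2]
      with z k1 k2 k3
    rw [ε.symm_apply_apply, e.left_inv k2] at k1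
    exact e.injOn k2 he.2 (ε.injective (not_not.1 fun c => k1 c k3))

variable {L : Type} [Field L] [Algebra ℂ L] {M : Gm 1 L} {x y : M.F} {P Q : Place L} {s f : L}

theorem loc (M : Gm 1 L) : Loc M.toMdl := Ct.loc 1 0 L M.toMdl M.prj

theorem gn_ne (h : M.Gn y P s) : s ≠ 0 := fun e => by simpa [e] using h.ord

theorem dv (h : M.Gn y P s) (hf : f ∈ M.O y) (h0 : M.val f y = 0) : f / s ∈ M.O y := by
  obtain ⟨b, h1, h2⟩ := (loc M).red y P s h _ hf
    ((isol h.mem (M.not_zero (gn_ne h))).mono fun z k k' => by rw [k k', h0])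
  refine M.mem_O_of h1 ?_
  filter_upwards [gen_of_nhds h2, M.at_pt (M.val_div f s) y, M.at_pt (M.val_ne (gn_ne h)) y]
    with z k1 k2 k3
  rw [k2, k1, mul_div_cancel_left₀ _ k3]

theorem uniq (h : M.On y P) (h' : M.On y Q) : P = Q := by
  obtain ⟨s, hs⟩ := h
  obtain ⟨t, ht⟩ := id h'
  by_contra e
  have k := Q.ord_nonneg_of_mem (ht.le _ (dv ht hs.mem hs.van))
  rw [Q.ord_div (gn_ne hs) (gn_ne ht), ht.ord, (loc M).other y P Q s hs h' (Ne.symm e)] at k
  omega

theorem mem_iff (h : M.On y P) : f ∈ M.O y ↔ f ∈ P.ring :=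
  ⟨h.choose_spec.le f, fun k => (loc M).mem y f fun _ hQ => uniq h hQ ▸ P.ord_nonneg_of_mem k⟩

theorem crd {t : Fin 1 → L} (h : M.Coord y t) {e : Chart 1 M.W} (he : At e y) :
    dd (M.val (t 0)) e y ≠ 0 := fun k => h.2 e he (by
  rw [Lo.Jc.jd_det he fun i => (h.1 i).1, Matrix.det_fin_one]
  exact DFunLike.congr_fun k _)

theorem ex (y : M.F) : ∃ P, M.On y P := by
  obtain ⟨t, ht⟩ := (loc M).coord y
  refine ((loc M).van y _ (ht.1 0).1 (fun e => crd ht (Lo.at_chartAt _) ?_) (ht.1 0).2).imp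
    fun _ k => k.1
  simp [e, dd, M.val_zero]

theorem pt_eq (h : M.On x P) (h' : M.On y P) : x = y := by
  by_contra e
  obtain ⟨f, h1, h2, h3⟩ := (loc M).sep x y e
  have c := fun z => (M.O z).algebraMap_mem (M.val f x)
  have k := (mem_iff h).2 ((mem_iff h').1 (M.inv_mem (sub_mem h2 (c y)) (by
    rw [M.val_sub_at h2 (c y), M.val_const]
    exact sub_ne_zero.2 h3.symm)))
  have q := M.val_mul_at (sub_mem h1 (c x)) k
  rw [mul_inv_cancel₀ fun e => h3 (by rw [sub_eq_zero.1 e, M.val_const, M.val_const]), M.val_one,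
    M.val_sub_at h1 (c x), M.val_const, sub_self, zero_mul] at q
  exact one_ne_zero q

theorem pr_iff : M.Pr P ↔ ∀ a, algebraMap ℂ L a ∈ P.ring :=
  ⟨Gm.pr_const, fun h =>
    let ⟨y, hy⟩ := ctr _ _ M P.ring h
    let ⟨_, hQ⟩ := ex (M.pt y)
    ⟨_, Place.eq_of_le' (fun f hf => hy f ((mem_iff hQ).2 hf)) ▸ hQ⟩⟩

/-- a function of order one is a coordinate -/
theorem dd_ne (h : M.On y P) (h1 : P.ord s = 1) {e : Chart 1 M.W} (he : At e y) :
    s ∈ M.O y ∧ M.val s y = 0 ∧ dd (M.val s) e y ≠ 0 := by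
  have s0 : s ≠ 0 := fun e => by simp [e] at h1
  have m : s ∈ M.O y := (mem_iff h).2 ((P.ord_nonneg_iff s0).1 (by omega))
  have v : M.val s y = 0 := by
    by_contra k
    have := P.ord_nonneg_of_mem ((mem_iff h).1 (M.inv_mem m k))
    rw [P.ord_inv] at this
    omega
  obtain ⟨t, ht⟩ := (loc M).coord y
  obtain ⟨r, hr⟩ := id h
  have r0 := gn_ne hr
  have m' : t 0 / s ∈ M.O y := by
    rw [← div_mul_div_cancel₀ r0]
    refine mul_mem (dv hr (ht.1 0).1 (ht.1 0).2) ((mem_iff h).2 ((P.ord_nonneg_iff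
      (div_ne_zero r0 s0)).1 ?_))
    rw [P.ord_div r0 s0, hr.ord, h1, sub_self]
  refine ⟨m, v, fun k => crd ht he ?_⟩
  have := M.nhds_mul m' m
  rw [div_mul_cancel₀ _ s0] at this
  rw [Slc.dd_congr this he, Slc.dd_mul m' m v he, k]
  ext v
  simp

open Classical in
theorem fs_one (P : Place L) : M.Fs (Pi.single P 1) :=
  (finite_singleton P).subset fun _ h => not_not.1 fun k => h.2 (Pi.single_eq_of_ne k 1)

open Classical in
/-- a point has degree one -/
theorem deg_one (T : TB) (h : M.Pr P) : ct.int M.V (M.cl (Pi.single P 1)) = 1 := by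
  obtain ⟨y, s, hs⟩ := h
  have sc : M.Sc (Pi.single P 1) 1 := Or.inr fun Q _ => by
    rw [Q.ord_one, zero_add]
    by_cases e : Q = P <;> simp [e]
  have z : {x | ¬ NZ (M.tb (Pi.single P 1)) (M.se 1) x} = {y.1} := by
    ext x
    refine (T.nz _ _ M _ _ x (fs_one P) sc).not.trans ⟨fun k => ?_, fun k k' => ?_⟩
    · by_contra e
      refine k ⟨one_ne_zero, fun Q hQ => ?_⟩
      rw [Q.ord_one, zero_add, Pi.single_eq_of_ne]
      rintro rfl
      exact e (congrArg Subtype.val (pt_eq hQ ⟨s, hs⟩))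
    · obtain rfl : x = y := k
      simpa using k'.2 P ⟨s, hs⟩
  obtain ⟨Z, i, hi⟩ := SubM.emb (n := 1) (d := 0) (S := {y.1}) (by
    rintro _ rfl
    refine ⟨1, fun _ => M.val s, rfl, ⟨fun _ => hs.mem, fun e he =>
      linearIndependent_unique_iff.2 (dd_ne ⟨s, hs⟩ hs.ord he).2.2⟩, ?_⟩
    filter_upwards [isol hs.mem (M.not_zero (gn_ne hs))] with x hx
    exact ⟨fun k _ => k ▸ hs.van, fun k => hx (k 0)⟩) isCompact_singleton
  have c : P280Z.Cut (V := M.V) (M.tb (Pi.single P 1)) (M.se 1) i :=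
    ⟨rfl, T.lb _ _ M _ (fs_one P), T.sec _ _ M _ _ (fs_one P) sc, z ▸ hi,
      fun p (a : L) ha e he => by
      have q : i p = y := hi.mem p
      rw [q] at ha he ⊢
      refine (dd_ne ⟨s, hs⟩ ?_ he).2.2
      have := ha.2 P ⟨s, hs⟩
      rw [Pi.single_eq_same] at this
      rw [one_div, P.ord_inv]
      omega⟩
  have := ct_ok.pl c 1
  rw [mul_one, map_one, ct_ok.rg.int_pt, Nat.card_congr (Equiv.ofInjective i hi.inj), hi.rng,
    Nat.card_unique, Nat.cast_one] at this
  exact this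

theorem deg (T : TB) {c : Place L → ℤ} (h : M.Fs c) :
    ct.int M.V (M.cl c) = ((∑ᶠ P : PlaceOver ℂ L, c P.1 : ℤ) : ℝ) := by
  classical
  have fin : ∀ c, M.Fs c → Function.HasFiniteSupport fun P : PlaceOver ℂ L => c P.1 := fun c h =>
    (h.preimage Subtype.val_injective.injOn).subset fun P hP => ⟨pr_iff.2 P.2, hP⟩
  suffices ∀ S : Finset (Place L), ∀ c, (∀ P, M.Pr P → c P ≠ 0 → P ∈ S) →
      ct.int M.V (M.cl c) = ((∑ᶠ P : PlaceOver ℂ L, c P.1 : ℤ) : ℝ) from
    this h.toFinset c fun P a b => h.mem_toFinset.2 ⟨a, b⟩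
  intro S
  induction S using Finset.induction_on with
  | empty =>
    intro c k
    have k' : ∀ P, M.Pr P → c P = 0 := fun P a => not_not.1 fun b => by simpa using k P a b
    rw [Gm.cl_congr T (c' := (0 : ℤ) • c) fun P a => by simp [k' P a],
      Gm.cl_smul T (finite_empty.subset fun P a => a.2 (k' P a.1)),
      finsum_eq_zero_of_forall_eq_zero fun P : PlaceOver ℂ L => k' _ (pr_iff.2 P.2)]
    simp
  | insert P S _ ih =>
    intro c k
    by_cases p : M.Pr P
    · have a : ∀ Q, M.Pr Q → Function.update c P 0 Q ≠ 0 → Q ∈ S := fun Q a b => by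
        have e : Q ≠ P := fun e => b (by rw [e, Function.update_self])
        exact (Finset.mem_insert.1 (k Q a (by rwa [Function.update_of_ne e] at b))).resolve_left e
      have b : M.Fs (Function.update c P 0) := S.finite_toSet.subset fun Q q => a Q q.1 q.2
      have e : c = Function.update c P 0 + c P • Pi.single P 1 := funext fun Q => by
        by_cases e : Q = P <;> simp [e]
      have d : ∑ᶠ Q : PlaceOver ℂ L, (c P • Pi.single P 1 : Place L → ℤ) Q.1 = c P :=
        (finsum_eq_single _ ⟨P, pr_iff.1 p⟩ fun Q q => by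
          simp [Pi.single_eq_of_ne fun e : Q.1 = P => q (Subtype.ext e)]).trans (by simp)
      rw [e, Gm.cl_add T b ((fs_one P).smul _), Gm.cl_smul T (fs_one P), map_add, map_smul,
        ih _ a, deg_one T p]
      simp only [Pi.add_apply]
      rw [finsum_add_distrib (fin _ b) (fin _ ((fs_one P).smul _)), d]
      simp
    · exact ih c fun Q a b => (Finset.mem_insert.1 (k Q a b)).resolve_left fun e => p (e ▸ a)

end CrvH

open CrvH in
/-- **CRV** -/
theorem crv_of (T : TB) : CRV := fun L _ _ M => by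
  refine ⟨?_, fun _ => pr_iff, fun _ => deg T⟩
  obtain ⟨y, -⟩ := M.conn.nonempty
  obtain ⟨t, ht⟩ := (loc M).coord (M.pt y)
  obtain ⟨D, -, h, -⟩ := dro _ _ M y t ht
  exact .of_finiteDimensional ((Ct.ai_of_dual h.dual).transcendental default)
    (range_unique (f := t) ▸ h.fin)

end Vale.Agent.P270L
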