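import Vale.Agent.P270L.BDefs
import Vale.Agent.P270L.T.Hg
import Mathlib.RingTheory.Valuation.LocalSubring
import Mathlib.RingTheory.Jacobson.Ring

/-!
# P270L, block A: row DESC
-/

open Set IntermediateField Polynomial
open Vale.Agent.P297 (Place PlaceOver IsFF)

noncomputable section

namespace Vale.Agent.P270L

namespace DescH

/-- the weak Nullstellensatz -/
lemma pt_ex (L D Ω : Type) [Field L] [CommRing D] [Nontrivial D] [Algebra L D]
    [Algebra.FiniteType L D] [Field Ω] [IsAlgClosed Ω] [Algebra L Ω] : Nonempty (D →ₐ[L] Ω) := by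
  obtain ⟨m, hm⟩ := Ideal.exists_maximal D
  let := Ideal.Quotient.field m
  have := finite_of_finite_type_of_isJacobsonRing L (D ⧸ m)
  exact ⟨(IsAlgClosed.lift : (D ⧸ m) →ₐ[L] Ω).comp (Ideal.Quotient.mkₐ L m)⟩

lemma frac_ex (k : Type) {B : Type} [Field k] [CommRing B] [Algebra k B] (P : Ideal B) [P.IsPrime] :
    ∃ (F : Type) (_ : Field F) (_ : Algebra k F) (π : B →ₐ[k] F), ∀ b, π b = 0 ↔ b ∈ P :=
  ⟨P.ResidueField, _, _, IsScalarTower.toAlgHom k B _, fun _ => Ideal.algebraMap_residueField_eq_zero⟩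

lemma ff_simple {k F : Type} [Field k] [Field F] [Algebra k F] {w : F} (h : Transcendental k w) :
    IsFF k k⟮w⟯ := by
  have e : k⟮AdjoinSimple.gen k w⟯ = ⊤ := lift_injective _ (by rw [lift_adjoin_simple, lift_top]; rfl)
  refine IsFF.of_finiteDimensional (t := AdjoinSimple.gen k w)
    ((transcendental_algebraMap_iff (algebraMap k⟮w⟯ F).injective).1 h) ?_
  exact .of_surjective (Algebra.linearMap _ _) fun a => ⟨⟨a, e ▸ trivial⟩, rfl⟩

lemma ff_fin (k L L' : Type) [Field k] [Field L] [Field L'] [Algebra k L] [Algebra k L']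
    [Algebra L L'] [IsScalarTower k L L'] [FiniteDimensional L L'] [h : IsFF k L] : IsFF k L' :=
  have := h.fin
  ⟨.comp k L L', by rw [← trdeg_add_eq k L, h.td, trdeg_eq_zero, add_zero]⟩

lemma root_mem {k B : Type} [Field k] [IsAlgClosed k] [CommRing B] [Algebra k B] (P : Ideal B)
    [hP : P.IsPrime] (w : B) {p : k[X]} (p0 : p ≠ 0) (h : aeval w p ∈ P) :
    ∃ a ∈ p.roots, w - algebraMap k B a ∈ P := by
  rw [(IsAlgClosed.splits p).eq_prod_roots, map_mul, aeval_C, P.unit_mul_mem_iff_mem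
    ((leadingCoeff_ne_zero.2 p0).isUnit.map _), map_multiset_prod,
    hP.multiset_prod_mem_iff_exists_mem] at h
  simpa using h

lemma sp_hom {k B F : Type} (L Ω : Type) [Field k] [CommRing B] [Algebra k B] [Field L] [Field F]
    [Algebra.FiniteType k B] [Algebra k L] [Algebra L F] [Algebra k F] [IsScalarTower k L F]
    [Field Ω] [IsAlgClosed Ω] [Algebra L Ω] [Algebra k Ω] [IsScalarTower k L Ω] (π : B →ₐ[k] F) :
    ∃ φ : B →ₐ[k] Ω, ∀ b t, π b = algebraMap L F t → φ b = algebraMap L Ω t := by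
  let D := Algebra.adjoin L (range π)
  have : Algebra.FiniteType L D := by
    obtain ⟨s, hs⟩ := Algebra.FiniteType.out (R := k) (A := B)
    have : D = Algebra.adjoin L (π '' s) := by
      rw [← Algebra.adjoin_adjoin_of_tower k (π '' s), ← AlgHom.map_adjoin, hs, Algebra.map_top]
      rfl
    exact this ▸ .adjoin_of_finite (s.finite_toSet.image π)
  obtain ⟨χ⟩ := pt_ex L D Ω
  have hD : ∀ b, π b ∈ D := fun b => Algebra.subset_adjoin ⟨b, rfl⟩
  have e : ∀ b t, π b = algebraMap L F t → χ ⟨_, hD b⟩ = algebraMap L Ω t := fun b t e =>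
    (congrArg χ (Subtype.ext e)).trans (χ.commutes t)
  refine ⟨⟨χ.toRingHom.comp (π.toRingHom.codRestrict D hD), fun a => ?_⟩, e⟩
  rw [IsScalarTower.algebraMap_apply k L Ω]
  exact e _ _ ((π.commutes a).trans (IsScalarTower.algebraMap_apply k L F a))

/-- a point with values in the closure of `k(t)` -/
lemma spec {k B : Type} [Field k] [CommRing B] [Algebra k B] [Algebra.FiniteType k B] (P : Ideal B)
    [P.IsPrime] (b : B) (hc : ∀ p : k[X], p ≠ 0 → aeval b p ∉ P) :
    ∃ (L Ω : Type) (_ : Field L) (_ : Field Ω) (_ : Algebra k L) (_ : Algebra L Ω)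
      (_ : Algebra k Ω) (_ : IsScalarTower k L Ω) (φ : B →ₐ[k] Ω) (t : L), IsAlgClosed Ω ∧
      Algebra.IsAlgebraic L Ω ∧ IsFF k L ∧ Transcendental k t ∧ φ b = algebraMap L Ω t ∧
      ∀ b ∈ P, φ b = 0 := by
  obtain ⟨F, _, _, π, hπ⟩ := frac_ex k P
  have hw : Transcendental k (π b) := fun ⟨p, p0, hp⟩ =>
    hc p p0 ((hπ _).1 (by rwa [aeval_algHom_apply] at hp))
  obtain ⟨φ, h⟩ := sp_hom k⟮π b⟯ (AlgebraicClosure k⟮π b⟯) π
  exact ⟨k⟮π b⟯, AlgebraicClosure k⟮π b⟯, _, _, _, _, _, inferInstance, φ,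
    AdjoinSimple.gen k (π b), inferInstance, inferInstance, ff_simple hw,
    (transcendental_algebraMap_iff (algebraMap k⟮π b⟯ F).injective).1 hw, h _ _ rfl,
    fun a ha => (h a 0 (((hπ a).2 ha).trans (map_zero _).symm)).trans (map_zero _)⟩

variable {k K : Type} [Field k] [Field K] [Algebra k K]

/-- the valuative criterion for the local ring of a normal point -/
lemma loc_mem {A : Subalgebra k K} (hA : ∀ f : K, IsIntegral A f → f ∈ A) (m : Ideal A)
    (hm : m ≠ ⊤) {f : K} (h : ∀ V : ValuationSubring K, (∀ a ∈ A, a ∈ V) →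
      (∀ a ∈ m, V.valuation (a : K) < 1) → f ∈ V) : ∃ s : A, s ∉ m ∧ s * f ∈ A := by
  rcases eq_or_ne f 0 with rfl | f0
  · exact ⟨1, (Ideal.ne_top_iff_one _).1 hm, by simp⟩
  let := invertibleOfNonzero (inv_ne_zero f0)
  let B := Algebra.adjoin A {f⁻¹}
  by_cases e : m.map (algebraMap A B) ⊔ .span {⟨f⁻¹, Algebra.subset_adjoin rfl⟩} = ⊤
  · obtain ⟨p, hp, hf⟩ := 
      Algebra.exists_aeval_invOf_eq_zero_of_idealMap_adjoin_sup_span_eq_top _ m hm e
    rw [invOf_eq_inv, inv_inv] at hf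
    exact ⟨_, fun c => (Ideal.ne_top_iff_one _).1 hm (by simpa using sub_mem c hp),
      hA _ (isIntegral_leadingCoeff_smul p f hf)⟩
  obtain ⟨V, h1, h2⟩ := Ideal.image_subset_nonunits_valuationSubring (A := B.toSubring) _ e
  exact absurd (h V (fun a ha => h1 (B.algebraMap_mem ⟨a, ha⟩)) fun a ha => V.mem_nonunits_iff.1
    (h2 ⟨_, Ideal.mem_sup_left (Ideal.mem_map_of_mem _ ha), rfl⟩))
    ((V.inv_mem_nonunits_iff.1 (h2 ⟨_, Ideal.mem_sup_right (Ideal.subset_span rfl), rfl⟩)).resolve_left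
      f0)

variable [IsAlgClosed k] [CharZero k] {ι σ : Type} [Fintype ι] [Fintype σ] {x : ι → K} {u : σ → K}

/-- the ratios of `u` are algebraic on the fibres -/
lemma alg (hE : EXT) (hV : VPD) (H : ∀ g : Dgf k K, g.d x = 0 → g.d u = 0) {i : ι} {l : σ}
    (xi : x i ≠ 0) (ul : u l ≠ 0) (B : Subalgebra k K) [Algebra.FiniteType k B]
    (hx : ∀ j, (x i)⁻¹ * x j ∈ B) (hu : ∀ m, (u l)⁻¹ * u m ∈ B) (P : Ideal B) [P.IsPrime]
    (ha : ∀ j, ∃ a, ⟨_, hx j⟩ - algebraMap k B a ∈ P) (j : σ) :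
    ∃ p : k[X], p ≠ 0 ∧ aeval (⟨_, hu j⟩ : B) p ∈ P := by
  by_contra! hc
  obtain ⟨L₀, Ω, _, _, _, _, _, _, φ, t, _, _, _, ht₀, et, hP⟩ := spec P _ hc
  obtain ⟨V, h, ψ, e, hi⟩ := hE K Ω B.toSubring φ
  obtain ⟨g, hg⟩ := hV k K L₀ Ω V (fun a => h _ (B.algebraMap_mem a)) ψ
    (fun a => (e (algebraMap k B a)).trans (φ.commutes a)) hi
  let L := adjoin L₀ (range fun m => φ ⟨_, hu m⟩)
  have : FiniteDimensional L₀ L :=
    finiteDimensional_adjoin fun a _ => Algebra.IsIntegral.isIntegral a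
  have := ff_fin k L₀ L
  have r0 : (Module.finrank L₀ L : ℚ) ≠ 0 := Nat.cast_ne_zero.2 Module.finrank_pos.ne'
  choose a ha using ha
  have ea : ∀ j, φ ⟨_, hx j⟩ = algebraMap k Ω (a j) := fun j => by
    rw [← φ.commutes, ← sub_eq_zero, ← map_sub]
    exact hP _ (ha j)
  have a1 : algebraMap k L (a i) = 1 := Subtype.ext ((ea i).symm.trans
    ((congrArg φ (Subtype.ext (inv_mul_cancel₀ xi))).trans (map_one φ)))
  have h1 := hg ι x _ (fun j => h _ (hx j)) L (fun j => algebraMap k L (a j))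
    (Function.ne_iff.2 ⟨i, a1.trans_ne one_ne_zero⟩) fun j => ((e ⟨_, hx j⟩).trans (ea j)).symm
  have h2 : ht k (fun j => algebraMap k L (a j)) = 0 := finsum_eq_zero_of_forall_eq_zero fun Q => by
    rw [HgH.mx_eq (l := i) Q.1 fun m => by
      rw [a1, map_one]; exact (Q.1.mem_ring_iff _).1 (Q.2 _), a1]
    simp
  rw [h2, Int.cast_zero, mul_eq_zero_iff_right r0] at h1
  let z : σ → L := fun m => ⟨_, subset_adjoin _ _ ⟨m, rfl⟩⟩
  have z1 : z l = 1 := Subtype.ext
    ((congrArg φ (Subtype.ext (inv_mul_cancel₀ ul))).trans (map_one φ))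
  have h3 := hg σ u _ (fun m => h _ (hu m)) L z (Function.ne_iff.2 ⟨l, z1.trans_ne one_ne_zero⟩)
    fun m => (e ⟨_, hu m⟩).symm
  have zt : Transcendental k (z j) := by
    rwa [show z j = algebraMap L₀ L t from Subtype.ext et,
      transcendental_algebraMap_iff (algebraMap L₀ L).injective]
  have h4 := P270L.hg.le k L this σ (Fin 2) z ![1, z j] (Function.ne_iff.2 ⟨0, one_ne_zero⟩)
    fun m => Submodule.subset_span (by fin_cases m; exacts [⟨l, z1⟩, ⟨j, rfl⟩])
  have := IsFF.finiteDimensional zt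
  rw [H g h1, zero_mul, eq_comm, Int.cast_eq_zero] at h3
  rw [P270L.hg.deg k L ‹_› _ zt, h3] at h4
  exact Module.finrank_pos.not_ge (by exact_mod_cast h4)

end DescH

open DescH in
theorem desc_of (hE : EXT) (hV : VPD) : DESC := by
  intro k K _ _ _ _ _ ι σ _ _ x u hx u0 H i
  classical
  set A := ch k x i
  have : Algebra.FiniteType k A := .adjoin_of_finite (finite_range _)
  let I : Ideal A :=
    { carrier := {a | ∃ t : σ → K, (∀ j l, t j * u l ∈ A) ∧ ∑ j, t j * u j = a}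
      add_mem' := fun ⟨t, h, e⟩ ⟨t', h', e'⟩ => ⟨t + t', fun j l => by
        simpa [add_mul] using add_mem (h j l) (h' j l), by
        simp [add_mul, Finset.sum_add_distrib, e, e']⟩
      zero_mem' := ⟨0, by simp, by simp⟩
      smul_mem' := fun c a ⟨t, h, e⟩ => ⟨fun j => c * t j, fun j l => by
        simpa [mul_assoc] using mul_mem c.2 (h j l), by simp [mul_assoc, ← Finset.mul_sum, e]⟩ }
  by_contra hn
  have := Ideal.Quotient.nontrivial_iff.2 ((Ideal.ne_top_iff_one I).2 hn)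
  obtain ⟨χ⟩ := pt_ex k (A ⧸ I) k
  let ev := χ.comp (Ideal.Quotient.mkₐ k I)
  let m := RingHom.ker ev
  have hm : m.IsPrime := RingHom.ker_isPrime ev
  let B : σ → Subalgebra k K := fun l =>
    Algebra.adjoin k (range (fun j => x j / x i) ∪ range fun j => (u l)⁻¹ * u j)
  have hAB : ∀ l, A ≤ B l := fun l => Algebra.adjoin_mono subset_union_left
  have hu : ∀ l j, (u l)⁻¹ * u j ∈ B l := fun l j => Algebra.subset_adjoin (.inr ⟨j, rfl⟩)
  have key : ∀ l j, ∃ p : k[X], p ≠ 0 ∧ (u l ≠ 0 →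
      aeval (⟨_, hu l j⟩ : B l) p ∈ m.map (Subalgebra.inclusion (hAB l))) := fun l j => by
    by_contra! hc
    have : Algebra.FiniteType k (B l) :=
      .adjoin_of_finite ((finite_range _).union (finite_range _))
    obtain ⟨P, hP, h1, h2⟩ := (m.map (Subalgebra.inclusion (hAB l))).exists_le_prime_disjoint
      ((nonZeroDivisors k[X]).map (aeval (⟨_, hu l j⟩ : B l))) (disjoint_left.2 <| by
        rintro _ h ⟨p, hp, rfl⟩
        exact (hc p (nonZeroDivisors.ne_zero hp)).2 h)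
    have hj : ∀ j, (x i)⁻¹ * x j ∈ A := fun j =>
      Algebra.subset_adjoin ⟨j, div_eq_inv_mul _ _⟩
    obtain ⟨p, p0, hp⟩ := alg hE hV H (hx.ne i) (hc 1 one_ne_zero).1 (B l) (fun j => hAB l (hj j))
      (hu l) P (fun j => ⟨ev ⟨_, hj j⟩, h1 (Ideal.mem_map_of_mem _
        (x := ⟨_, hj j⟩ - algebraMap k A (ev ⟨_, hj j⟩)) (by simp [m, RingHom.mem_ker]))⟩) j
    exact disjoint_left.1 h2 hp ⟨p, mem_nonZeroDivisors_of_ne_zero p0, rfl⟩
  choose p p0 hp using key
  have hZ : {a : σ → k | a ≠ 0 ∧ ∃ l, ∀ j, a j ∈ (p l j).roots}.Finite :=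
    (finite_iUnion fun l => Finite.pi' fun j => (p l j).roots.finite_toSet).subset
      fun a ha => mem_iUnion.2 ha.2
  have := hZ.to_subtype
  obtain ⟨μ, hμ⟩ := Module.exists_dual_forall_apply_ne_zero (K := k)
    (fun a : {a : σ → k | a ≠ 0 ∧ ∃ l, ∀ j, a j ∈ (p l j).roots} => a.1) fun a => a.2.1
  let c : σ → k := fun j => μ (Pi.single j 1)
  let f : K := ∑ j, c j • u j
  have dom : ∀ V : ValuationSubring K, (∀ a ∈ A, a ∈ V) → (∀ a ∈ m, V.valuation (a : K) < 1) →
      f ≠ 0 ∧ ∀ j, f⁻¹ * u j ∈ V := fun V h1 h2 => by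
    obtain ⟨l₀, h0⟩ := Function.ne_iff.1 u0
    obtain ⟨l, -, hl⟩ := Finset.exists_max_image Finset.univ (fun l => V.valuation (u l))
      ⟨l₀, Finset.mem_univ _⟩
    have ul : u l ≠ 0 := fun e => h0 (by simpa [e] using hl l₀ (Finset.mem_univ _))
    have hB : ∀ b ∈ B l, b ∈ V := fun b hb => by
      refine (Algebra.adjoin_le (S := { V.toSubring with
        algebraMap_mem' := fun a => h1 _ (A.algebraMap_mem a) }) ?_) hb
      rintro _ (⟨j, rfl⟩ | ⟨j, rfl⟩)
      · exact h1 _ (Algebra.subset_adjoin ⟨j, rfl⟩)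
      · refine (V.valuation_le_one_iff _).1 ?_
        rw [map_mul, map_inv₀, inv_mul_le_one₀ (by simpa [zero_lt_iff] using ul)]
        exact hl j (Finset.mem_univ _)
    let ρ : B l →+* V := (B l).subtype.codRestrict V fun b => hB b b.2
    let P := (IsLocalRing.maximalIdeal V).comap ρ
    have hP : m.map (Subalgebra.inclusion (hAB l)) ≤ P := Ideal.map_le_iff_le_comap.2 fun a ha =>
      (V.valuation_lt_one_iff _).2 (h2 a ha)
    choose a ha hP using fun j => root_mem P _ (p0 l j) (hP (hp l j ul))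
    have unit : ∀ (b : B l) (r : k), r ≠ 0 → b - algebraMap k _ r ∈ P → b ∉ P := fun b r r0 h h' =>
      Ideal.IsPrime.ne_top inferInstance (P.eq_top_of_isUnit_mem
        (by simpa using sub_mem h' h) (r0.isUnit.map (algebraMap k (B l))))
    have a0 : a ≠ 0 := fun e => (Ideal.ne_top_iff_one P).1 (Ideal.IsPrime.ne_top inferInstance) <| by
      simpa [e, ul] using! hP l
    have := unit (∑ j, c j • ⟨_, hu l j⟩) _ (hμ ⟨a, a0, l, ha⟩) (by
      have e : μ a = ∑ j, c j * a j := by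
        rw [← congrArg μ (Finset.univ_sum_single a), map_sum]
        exact Finset.sum_congr rfl fun j _ => by
          rw [mul_comm, ← smul_eq_mul, ← map_smul, ← Pi.single_smul, smul_eq_mul, mul_one]
      rw [e, map_sum, ← Finset.sum_sub_distrib]
      refine sum_mem fun j _ => ?_
      rw [map_mul, Algebra.smul_def, ← mul_sub]
      exact P.mul_mem_left _ (hP j))
    have e : (ρ (∑ j, c j • ⟨_, hu l j⟩) : K) = (u l)⁻¹ * f := by
      simp [ρ, f, Finset.mul_sum]
    have hv := (V.valuation_eq_one_iff _).1 (not_not.1 this)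
    rw [e] at hv
    have f0 : f ≠ 0 := fun c => by simp [c] at hv
    refine ⟨f0, fun j => ?_⟩
    have := mul_mem ((V.valuation_le_one_iff ((u l)⁻¹ * f)⁻¹).1 (by rw [map_inv₀, hv, inv_one]))
      (hB _ (hu l j))
    rwa [mul_inv, inv_inv, mul_mul_mul_comm, mul_inv_cancel₀ ul, one_mul] at this
  obtain ⟨V, h1, h2⟩ := Ideal.image_subset_nonunits_valuationSubring (A := A.toSubring) m hm.ne_top
  have f0 := (dom V (fun a ha => h1 ha) fun a ha => V.mem_nonunits_iff.1 (h2 ⟨a, ha, rfl⟩)).1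
  choose s hs hf using fun j => loc_mem (hx.normal i) m hm.ne_top fun V a b => (dom V a b).2 j
  refine (Ideal.IsPrime.prod_mem_iff (s := Finset.univ) (x := s)).not.2 (by simpa using hs) ?_
  refine (congrArg χ (Ideal.Quotient.eq_zero_iff_mem.2 ?_)).trans (map_zero χ)
  refine ⟨fun j => c j • (↑(∏ j, s j) * f⁻¹), fun j l => ?_, ?_⟩
  · rw [smul_mul_assoc, ← Finset.prod_erase_mul _ _ (Finset.mem_univ l), Subalgebra.coe_mul,
      mul_assoc, mul_assoc]
    exact A.smul_mem (mul_mem (Subtype.prop _) (hf l)) _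
  · simp_rw [smul_mul_assoc, ← mul_smul_comm, ← Finset.mul_sum]
    exact inv_mul_cancel_right₀ f0 _

end Vale.Agent.P270L
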