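import Vale.Agent.P270L.BDefs
import Mathlib.RingTheory.Valuation.LocalSubring

/-!
# P270L, block A: row EXT
-/

open Set IsLocalRing

noncomputable section

namespace Vale.Agent.P270L

namespace ExtH

variable {K : Type} [Field K]

/-- a minimal valuation ring -/
theorem minv (S : Set K) (V₀ : ValuationSubring K) (h : S ⊆ V₀) : ∃ V : ValuationSubring K,
    S ⊆ V ∧ V ≤ V₀ ∧ ∀ U : ValuationSubring K, S ⊆ U → U ≤ V → V ≤ U := by
  obtain ⟨W, h0, hS, hm⟩ := zorn_le_nonempty₀ (α := (ValuationSubring K)ᵒᵈ)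
    {W : ValuationSubring K | S ⊆ W} (fun C hC hc V hV => by
      refine ⟨(⟨⨅ U : C, ValuationSubring.toSubring U.1, fun c => ?_⟩ : ValuationSubring K),
        fun s hs => ?_, fun U hU c h => Subring.mem_iInf.1 h ⟨U, hU⟩⟩
      · rw [Subring.mem_carrier, Subring.mem_carrier, Subring.mem_iInf, Subring.mem_iInf]
        by_contra hn
        push Not at hn
        obtain ⟨⟨U, h1⟩, U', h2⟩ := hn
        rcases hc.total U.2 U'.2 with h | h
        · exact (ValuationSubring.mem_or_inv_mem U'.1 c).elim (fun h' => h1 (h h')) h2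
        · exact (ValuationSubring.mem_or_inv_mem U.1 c).elim h1 fun h' => h2 (h h')
      · exact Subring.mem_iInf.2 fun U => hC U.2 hs) V₀ h
  exact ⟨W, hS, h0, fun U hU hle => hm hU hle⟩

/-- the composition of valuation rings -/
def cmp (V : ValuationSubring K) (U : ValuationSubring (ResidueField V)) : ValuationSubring K where
  toSubring := (U.toSubring.comap (residue V)).map V.subtype
  mem_or_inv_mem' c := by
    have key : ∀ c (h : c ∈ V), c⁻¹ ∉ V →
        c ∈ (U.toSubring.comap (residue V)).map V.subtype := fun c h hn => by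
      refine ⟨⟨c, h⟩, ?_, rfl⟩
      have : residue V ⟨c, h⟩ = 0 := (residue_eq_zero_iff _).2 fun hu => hn <| by
        obtain ⟨b, hb⟩ := hu.exists_right_inv
        rw [inv_eq_of_mul_eq_one_right (congrArg Subtype.val hb)]
        exact b.2
      exact show residue V _ ∈ U from this ▸ U.zero_mem
    by_cases h1 : c ∈ V
    · by_cases h2 : c⁻¹ ∈ V
      · rcases eq_or_ne c 0 with rfl | c0
        · exact .inl (Subring.zero_mem _)
        have : residue V ⟨c⁻¹, h2⟩ = (residue V ⟨c, h1⟩)⁻¹ := eq_inv_of_mul_eq_one_left <| by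
          rw [← map_mul, ← map_one (residue V)]
          exact congrArg _ (Subtype.ext (inv_mul_cancel₀ c0))
        exact (U.mem_or_inv_mem (residue V ⟨c, h1⟩)).imp (fun h => ⟨⟨c, h1⟩, h, rfl⟩)
          fun h => ⟨⟨c⁻¹, h2⟩, show residue V _ ∈ U from this ▸ h, rfl⟩
      · exact .inl (key c h1 h2)
    · exact .inr (key _ ((V.mem_or_inv_mem c).resolve_left h1) (by rwa [inv_inv]))

theorem inv_mem (V : ValuationSubring K) (f : V) (h : residue V f ≠ 0) : (f : K)⁻¹ ∈ V := by
  obtain ⟨b, hb⟩ := (not_not.1 fun hu => h ((residue_eq_zero_iff _).2 hu) :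
    IsUnit f).exists_right_inv
  rw [inv_eq_of_mul_eq_one_right (congrArg Subtype.val hb)]
  exact b.2

end ExtH

open ExtH

theorem ext : EXT := by
  intro K Ω _ _ _ A φ
  have := RingHom.ker_isPrime φ
  let B := LocalSubring.ofPrime A (RingHom.ker φ)
  obtain ⟨V₀, hV⟩ := B.exists_le_valuationSubring
  obtain ⟨V, h1, h2, h3⟩ := minv B.toSubring V₀ hV.1
  let i : B.toSubring →+* V := Subring.inclusion h1
  have hi : IsLocalHom i := ⟨fun a ha => by
    have := hV.2
    exact (isUnit_map_iff (Subring.inclusion hV.1) a).1 (ha.map (Subring.inclusion h2))⟩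
  let F := ResidueField B.toSubring
  let _ : Algebra F (ResidueField V) := (ResidueField.map i).toAlgebra
  have ha : Algebra.IsIntegral F (ResidueField V) := ⟨fun x => by
    by_contra hx
    have : IsIntegrallyClosedIn (integralClosure F (ResidueField V)).toSubring (ResidueField V) :=
      inferInstanceAs (IsIntegrallyClosedIn (integralClosure F (ResidueField V)) _)
    obtain ⟨U, hU, hxU⟩ := Subring.exists_le_valuationSubring_of_isIntegrallyClosedIn
      (R := (integralClosure F (ResidueField V)).toSubring) hx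
    obtain ⟨a, rfl⟩ := residue_surjective x
    obtain ⟨b, hb, e⟩ := h3 (cmp V U) (fun s hs => ⟨i ⟨s, hs⟩,
      hU ((integralClosure F _).algebraMap_mem (residue _ ⟨s, hs⟩)), rfl⟩)
      (by rintro _ ⟨a, -, rfl⟩; exact a.2) a.2
    obtain rfl : b = a := Subtype.ext e
    exact hxU hb⟩
  let φ₁ : B.toSubring →+* Ω := IsLocalization.lift (M := (RingHom.ker φ).primeCompl) (g := φ)
    fun y => Ne.isUnit y.2
  have hφ : IsLocalHom φ₁ := ⟨fun a ha => by
    obtain ⟨x, s, rfl⟩ := IsLocalization.exists_mk'_eq (RingHom.ker φ).primeCompl a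
    rw [IsLocalization.AtPrime.isUnit_mk'_iff _ (RingHom.ker φ)]
    intro hx
    refine ha.ne_zero ?_
    rw [IsLocalization.lift_mk', show φ x = 0 from hx, zero_mul]⟩
  let _ : Algebra F Ω := (ResidueField.lift φ₁).toAlgebra
  let σ : ResidueField V →ₐ[F] Ω := IsAlgClosed.lift
  refine ⟨V, fun a ha => h1 (LocalSubring.le_ofPrime A _ ha), σ.toRingHom.comp (residue V),
    fun a => ?_, fun f hf => inv_mem V f fun e => hf ?_⟩
  · refine (σ.commutes (residue _ (algebraMap A B.toSubring a))).trans ?_
    exact (ResidueField.lift_residue_apply φ₁ _).trans (IsLocalization.lift_eq _ a)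
  · rw [RingHom.comp_apply, e, map_zero]

end Vale.Agent.P270L
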