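import Vale.Agent.P270L.A.Dro
import Vale.Agent.P270L.T.Hg
import Vale.Agent.P277Z.FI.Box

/-!
# P270L, block A: row IMM
-/

open scoped Topology
open Set Filter
open Vale.Agent.P297 (Place)
open Vale.Agent.P272.K (Cm At)
open Vale.Agent.P285N.Brep (jac Fr)
open Vale.Agent.P277Z Vale.Agent.P277Z.Lo

noncomputable section

namespace Vale.Agent.P270L

namespace ImmH

variable {n : ℕ} {K : Type} [Field K] [Algebra ℂ K] {M : Gm n K} {σ : Type} [Fintype σ]
  {s : σ → K} {y : M.W}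

theorem mx_on {l : σ} (h0 : s l ≠ 0) (h : ∀ m, s m / s l ∈ M.O (M.pt y)) {P : Place K}
    (hP : M.On (M.pt y) P) : mx P s = -P.ord (s l) :=
  HgH.mx_eq P fun m => by
    have := (P.mem_ring_iff _).1 (hP.choose_spec.le _ (h m))
    rwa [map_div₀, div_le_one₀ ((P.val.pos_iff).2 h0)] at this

end ImmH

open ImmH in
/-- row IMM -/
theorem imm_of (hK : KAP) : IMM := by
  intro n K _ _ M ι _ x r e y δ i w hx hy x0 hw
  obtain ⟨y₀, -⟩ := M.conn.nonempty
  obtain ⟨t, ht⟩ := (FI.locA n 0 K M.toMdl M.prj).coord (M.pt y₀)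
  obtain ⟨D, h1, h2, -⟩ := dro n K M y₀ t ht
  have h3 : jac D (fun a => x (w a) / x i) ≠ 0 :=
    right_ne_zero_of_mul (hK.chain ℂ K n t D h2 δ _ ▸ hw)
  have he := Lo.at_chartAt (n := n) y₀
  have g1 : ∀ f : K, ∀ᶠ p in gen {y₀}, f ∈ M.O (M.pt p) := fun f =>
    (mer_gen_hol (M.mer f y₀ (M.pt y₀).2)).mono fun _ ⟨_, h1, h2⟩ =>
      h1.congr (h2.mono fun _ => Eq.symm)
  obtain ⟨p, ⟨⟨⟨a1, a2⟩, a3⟩, a4⟩, a5⟩ := (((((h1 _ y₀ (M.pt y₀).2 _ he).and
    (M.at_pt (M.val_ne h3) (M.pt y₀))).and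
    (gen_of_nhds (hol_ne (M.coord_jd_hol ht he) (ht.2 _ he)))).and
    (eventually_all.2 fun m => g1 (x m / x i))).and (gen_of_nhds (Jc.ev_at he))).exists
  refine ⟨x i, _, p, a5, ⟨x0, fun P hP => by simp only [mx_on x0 a4 hP, add_neg_cancel]⟩,
    fun v hv => ?_⟩
  have a6 := mul_ne_zero a2 a3
  rw [← a1, jd, ← isUnit_iff_ne_zero, ← LinearMap.isUnit_iff_isUnit_det, LinearMap.isUnit_iff_ker_eq_bot,
    LinearMap.ker_eq_bot'] at a6
  refine a6 v (funext fun a => ?_)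
  have k := hv (e.symm (w a)) (e.symm i)
  simp only [Gm.se, e.apply_symm_apply, div_self x0, M.val_one, fderiv_fun_const, Pi.zero_apply,
    zero_apply, zero_mul, mul_one] at k
  exact (congrArg (· v a) (fderiv_pi fun a => (a4 (w a) _ a5).differentiableAt)).trans k

end Vale.Agent.P270L
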