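import Vale.Agent.P270L.BDefs
import Vale.Agent.P270L.T.Hyb
import Vale.Agent.P270L.T.Dg
import Vale.Agent.P270L.T.Semi
import Vale.Agent.P270L.T.Hg

/-!
# P270L, block A: rows JNZ, LOW
-/

open Set
open Vale.Agent.P297 (IsFF)
open Vale.Agent.P285N.Brep (jac Fr)

noncomputable section

namespace Vale.Agent.P270L

theorem jnz : JNZ := by
  classical
  intro k K _ _ _ _ ι _ x n y δ hm hf i
  let v : ι → Fin n → K := fun a j => δ j (x a / x i)
  have hs : Submodule.span K (range v) = ⊤ := by
    by_contra hne
    obtain ⟨μ, h0, hμ⟩ := Submodule.exists_le_ker_of_lt_top _ (lt_top_iff_ne_top.2 hne)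
    let c : Fin n → K := fun j => μ (Pi.single j 1)
    let E : Derivation k K K := ∑ j, c j • δ j
    have hE : ∀ f, E f = μ fun j => δ j f := fun f => by
      rw [P285N.Brep.TbAux.sum_apply, LinearMap.pi_apply_eq_sum_univ]
      refine Finset.sum_congr rfl fun j _ => ?_
      rw [Derivation.smul_apply, smul_eq_mul, smul_eq_mul, mul_comm]
      refine congrArg (fun w => δ j f * μ w) (funext fun l => ?_)
      simp [Pi.single_apply, eq_comm]
    have h1 : ∀ f ∈ ch k x i, E f = 0 := fun f hf => by
      induction hf using Algebra.adjoin_induction with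
      | mem f hf =>
        obtain ⟨a, rfl⟩ := hf
        rw [hE]
        exact hμ (Submodule.subset_span ⟨a, rfl⟩)
      | algebraMap a => exact E.map_algebraMap a
      | add a b _ _ ha hb => rw [map_add, ha, hb, add_zero]
      | mul a b _ _ ha hb => rw [E.leibniz, ha, hb, smul_zero, smul_zero, add_zero]
    have h2 : ∀ f, E f = 0 := fun f => by
      obtain ⟨b, hb, b0, h⟩ := hm.frac i f
      have := h1 _ h
      rw [E.leibniz, h1 b hb, smul_zero, add_zero, smul_eq_mul] at this
      exact (mul_eq_zero.1 this).resolve_left b0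
    refine h0 (LinearMap.pi_ext' fun j => LinearMap.ext_ring ?_)
    have := (hE (y j)).symm.trans (h2 _)
    simp only [hf.dual] at this
    rw [LinearMap.comp_apply, LinearMap.comp_apply, LinearMap.zero_apply, ← this]
    congr 1
    ext l
    simp [Pi.single_apply]
  obtain ⟨κ, a, -, h1, h2⟩ := exists_linearIndependent' K v
  let b : Module.Basis κ K (Fin n → K) := Module.Basis.mk h2 (by rw [h1, hs])
  let e : Fin n ≃ κ := (Pi.basisFun K (Fin n)).indexEquiv b
  refine ⟨a ∘ e, ?_⟩
  have h3 : LinearIndependent K (Matrix.of fun l j => δ l (x ((a ∘ e) j) / x i)).col :=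
    h2.comp e e.injective
  exact (Matrix.isUnit_iff_isUnit_det _).1 (Matrix.linearIndependent_cols_iff_isUnit.1 h3) |>.ne_zero

theorem low : LOW := by
  intro k _ _ _ K _ _ ι _ _ x y δ q C M h
  have hb : ∀ f : K, ∃ c, algebraMap k K c = f := fun f => by
    have := h.fr.fin
    have h1 : IsAlgebraic (IntermediateField.adjoin k (range y)) f := .of_finite _ _
    rw [range_eq_empty, IntermediateField.adjoin_empty] at h1
    have : Algebra.IsAlgebraic k (⊥ : IntermediateField k K) :=
      (IntermediateField.botEquiv k K).symm.isAlgebraic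
    have h2 : IsIntegral k f := (h1.restrictScalars k).isIntegral
    exact minpoly.mem_range_of_degree_eq_one k f
      (IsAlgClosed.degree_eq_one_of_irreducible k (minpoly.irreducible h2))
  have h0 : ∀ (p : Cv k x) (σ : Type) [Fintype σ] (s : σ → K), p.dg s = 0 := fun p σ _ s => by
    unfold Cv.dg
    split_ifs with he
    · obtain ⟨z0, τ, hτ, hz⟩ := he.choose_spec
      refine le_antisymm ?_ (hg.nn k _ p.ff _ _)
      rw [← SemiAux.ht_const (k := k) (L := p.L) 1]
      refine hg.le k _ p.ff _ _ _ _ z0 fun l => ?_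
      obtain ⟨c, hc⟩ := hb (τ * s l)
      have : (⟨τ * s l, hτ l⟩ : ch k x p.i) = algebraMap k _ c := Subtype.ext hc.symm
      rw [hz, this, AlgHom.commutes, Algebra.algebraMap_eq_smul_one c]
      exact Submodule.smul_mem _ _ (Submodule.subset_span (mem_range_self (f := ![1, _]) 0))
    · rfl
  exact ⟨1, ι, inferInstance, x, one_pos, HybH.free_self h.md.ne, fun p => by
    simp [Cv.deg, h0]⟩

end Vale.Agent.P270L
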