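import Vale.Agent.P270L.BDefs
import Vale.Agent.P270L.T.Der
import Vale.Agent.P270L.T.Fru

/-!
# P270L, block A: rows KAP, DVL
-/

open Set
open Vale.Agent.P297 (Place)
open Vale.Agent.P285N.Brep (jac Fr)

noncomputable section

namespace Vale.Agent.P270L

namespace KapH

variable {k K : Type} [Field k] [Field K] [Algebra k K] {n : ℕ}

theorem jac_self {t : Fin n → K} {D : Fin n → Derivation k K K} (h : Fr t D) : jac D t = 1 := by
  have : (Matrix.of fun i j => D i (t j)) = 1 := by
    ext i j
    rw [Matrix.of_apply, h.dual, Matrix.one_apply]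
  rw [jac, this, Matrix.det_one]

theorem chain [CharZero k] {t : Fin n → K} {D : Fin n → Derivation k K K} (h : Fr t D)
    (E : Fin n → Derivation k K K) (y : Fin n → K) : jac E y = jac E t * jac D y := by
  unfold jac
  rw [← Matrix.det_mul]
  congr 1
  ext i j
  rw [Matrix.mul_apply, Matrix.of_apply, der.un k K K n t D h (E i) (y j)]
  exact Finset.sum_congr rfl fun l _ => mul_comm _ _

theorem jac_mem (R : Subring K) {D : Fin n → Derivation k K K} {z : Fin n → K}
    (h : ∀ i j, D i (z j) ∈ R) : jac D z ∈ R := by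
  rw [jac, Matrix.det_apply']
  exact sum_mem fun σ _ => mul_mem (intCast_mem R _) (prod_mem fun i _ => h _ _)

end KapH

open KapH

theorem kap_row : KAP where
  chain k K _ _ _ _ n t D h := chain h
  ne k K _ _ _ _ n t y D δ h h' e := by
    have := chain h δ y
    rw [e, mul_zero, jac_self h'] at this
    exact one_ne_zero this
  eq k K _ _ _ _ n t y D P h := by
    have he : ∃ q : (Fin n → K) × (Fin n → Derivation k K K), Ad k P q.1 q.2 := ⟨(t, D), h⟩
    rw [kap, dif_pos he]
    have h' := he.choose_spec
    generalize he.choose = q at h' ⊢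
    have h1 := chain h.fr q.2 q.1
    rw [jac_self h'.fr] at h1
    have h0 : jac q.2 t ≠ 0 := left_ne_zero_of_mul_eq_one h1.symm
    have h2 : P.ord (jac q.2 t) = 0 := (P.ord_eq_zero_iff h0).2
      ⟨jac_mem P.ring.toSubring fun i j => h'.pre i _ (h.mem j), by
        rw [inv_eq_of_mul_eq_one_right h1.symm]
        exact jac_mem P.ring.toSubring fun i j => h.pre i _ (h'.mem j)⟩
    rw [chain h.fr q.2 y]
    by_cases e : jac D y = 0
    · rw [e, mul_zero]
    · rw [P.ord_mul h0 e, h2, zero_add]

theorem dvl : DVL := by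
  intro k K _ _ _ _ n t D P hk h i hi
  obtain ⟨d, rfl⟩ : ∃ d, n = d + 1 := ⟨n - 1, by have := i.pos; omega⟩
  have t0 : t i ≠ 0 := fun e => by simp [e] at hi
  let w : Fin d → K := fun j => t (i.succAbove j)
  have hm : ∀ F : MvPolynomial (Fin d) k, MvPolynomial.aeval w F ∈ P.ring := fun F => by
    induction F using MvPolynomial.induction_on with
    | C a => rw [MvPolynomial.aeval_C]; exact hk a
    | add p q hp hq => rw [map_add]; exact add_mem hp hq
    | mul_X p j hp => rw [map_mul, MvPolynomial.aeval_X]; exact mul_mem hp (h.mem _)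
  have h1 : ∀ f, P.val f < 1 ↔ f / t i ∈ P.ring := fun f => by
    by_cases e : f = 0
    · simp [e, zero_mem]
    · rw [← P.ord_pos_iff_val e, ← P.ord_nonneg_iff (div_ne_zero e t0), P.ord_div e t0]
      omega
  have h2 : ∀ j (F : MvPolynomial (Fin d) k), P.val (MvPolynomial.aeval w F) < 1 →
      P.val (MvPolynomial.aeval w (MvPolynomial.pderiv j F)) < 1 := fun j F hF => by
    rw [h1] at hF ⊢
    have h3 := h.pre (i.succAbove j) _ hF
    have h4 := P285N.Brep.TbAux.da (D (i.succAbove j)) w F
    simp only [w, h.fr.dual, Fin.succAbove_right_inj, ite_mul, one_mul, zero_mul,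
      Finset.sum_ite_eq, Finset.mem_univ, if_true] at h4
    rw [Derivation.leibniz_div, h.fr.dual, if_neg (Fin.succAbove_ne i j), h4] at h3
    convert h3 using 1
    simp only [smul_eq_mul]
    field_simp
    simp [w, mul_comm]
  refine ⟨hk, d, w, rfl, fun j => h.mem _, fun F hF => ?_⟩
  refine le_antisymm ((P.mem_ring_iff _).1 (hm F)) (not_lt.1 fun hl => hF ?_)
  suffices H : ∀ (N : ℕ) (F : MvPolynomial (Fin d) k), (∀ m : Fin d →₀ ℕ, N ≤ m.degree →
      F.coeff m = 0) → P.val (MvPolynomial.aeval w F) < 1 → F = 0 from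
    H (F.totalDegree + 1) F (fun _ hm => MvPolynomial.coeff_eq_zero_of_totalDegree_lt hm) hl
  intro N
  induction N with
  | zero =>
    intro p h _
    ext m
    rw [h m (Nat.zero_le _), MvPolynomial.coeff_zero]
  | succ N ih =>
    intro p hp h0
    have h2 : ∀ j, MvPolynomial.pderiv j p = 0 := fun j => by
      refine ih _ (fun m hm => ?_) (h2 j p h0)
      rw [MvPolynomial.coeff_pderiv, hp, zero_mul]
      rw [map_add, Finsupp.degree_single]
      omega
    have h3 : p = MvPolynomial.C (p.coeff 0) := by
      ext m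
      rw [MvPolynomial.coeff_C]
      split_ifs with hm
      · rw [hm]
      · obtain ⟨j, hj⟩ : ∃ j, m j ≠ 0 := by
          by_contra hc
          exact hm (Finsupp.ext fun j => by
            by_contra hj
            exact hc ⟨j, fun e => hj (by rw [e]; rfl)⟩)
        have e : m = (m - Finsupp.single j 1) + Finsupp.single j 1 := by
          rw [tsub_add_cancel_of_le]
          exact Finsupp.single_le_iff.2 (Nat.one_le_iff_ne_zero.2 hj)
        have := MvPolynomial.coeff_pderiv (i := j) p (m - Finsupp.single j 1)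
        rw [h2 j, MvPolynomial.coeff_zero, ← e] at this
        exact (mul_eq_zero.1 this.symm).resolve_right (Nat.cast_add_one_ne_zero _)
    rw [h3, MvPolynomial.aeval_C] at h0
    by_contra hne
    have c0 : algebraMap k K (p.coeff 0) ≠ 0 := fun e =>
      hne (by rw [h3, (map_eq_zero _).1 e, map_zero])
    have := (P.ord_eq_zero_iff c0).2 ⟨hk _, by rw [← map_inv₀]; exact hk _⟩
    have := (P.ord_pos_iff_val c0).2 h0
    omega

end Vale.Agent.P270L
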