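import Vale.Agent.P270L.BDefs
import Vale.Agent.P270L.T.Dg

/-!
# P270L, block A: the degree function of a curve (row LIFT)
-/

open Set IntermediateField

noncomputable section

namespace Vale.Agent.P270L

theorem lift_of (hE : EXT) (hV : VPD) (hT : HTM) : LIFT := by
  intro k K _ _ _ _ _ ι x p
  obtain ⟨V, h, ψ, h1, h2⟩ := hE K (AlgebraicClosure p.L) (ch k x p.i).toSubring
    ((algebraMap p.L _).comp p.φ.toRingHom)
  obtain ⟨g, hg⟩ := hV k K p.L (AlgebraicClosure p.L) V
    (fun a => h _ (Subalgebra.algebraMap_mem _ a)) ψ (fun a => by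
      rw [IsScalarTower.algebraMap_apply k p.L (AlgebraicClosure p.L), ← p.φ.commutes a]
      exact h1 ⟨_, Subalgebra.algebraMap_mem _ a⟩) h2
  refine ⟨g, fun σ _ s hs => ?_⟩
  obtain ⟨z, hz⟩ := DgH.exr p s hs
  rw [DgH.eqr p s z hz]
  obtain ⟨h0, τ, h3, h4⟩ := hz
  have h5 := hg σ s τ (fun l => h _ (h3 l)) ⊥ (up _ z)
    (fun e => h0 (funext fun l => (algebraMap p.L _).injective ((congrFun e l).trans
      (map_zero _).symm))) fun l => by rw [h1 ⟨_, h3 l⟩, up, h4]; rfl
  rw [(hT k p.L p.ff _).2, IntermediateField.finrank_bot] at h5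
  simpa using h5

end Vale.Agent.P270L
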