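import Vale.Agent.P270L.BDefs
import Vale.Agent.P270L.T.Hg
import Vale.Agent.P270L.T.Semi

/-!
# P270L, block A: rows MXA, HTM
-/

open Set IntermediateField
open Vale.Agent.P297 (Place IsFF)

noncomputable section

namespace Vale.Agent.P270L

namespace MxaH

variable {K : Type} [Field K] {σ σ' : Type} [Fintype σ] [Fintype σ']

theorem le_mv (U : ValuationSubring K) (s : σ → K) (l : σ) : U.valuation (s l) ≤ mv U s :=
  Finset.le_sup (f := fun l => U.valuation (s l)) (Finset.mem_univ l)

theorem mv_le {U : ValuationSubring K} {s : σ → K} {a : U.ValueGroup}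
    (h : ∀ l, U.valuation (s l) ≤ a) : mv U s ≤ a := Finset.sup_le fun l _ => h l

theorem ex_mv (U : ValuationSubring K) (s : σ → K) [Nonempty σ] :
    ∃ l, mv U s = U.valuation (s l) := by
  obtain ⟨l, -, e⟩ := Finset.exists_mem_eq_sup Finset.univ Finset.univ_nonempty
    fun l => U.valuation (s l)
  exact ⟨l, e⟩

theorem val_le (P : Place K) (a b : K) : P.ring.valuation a ≤ P.ring.valuation b ↔
    P.val a ≤ P.val b := by
  by_cases e : b = 0
  · simp [e]
  · rw [← div_le_one₀ ((Valuation.pos_iff _).2 e), ← map_div₀, ValuationSubring.valuation_le_one_iff,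
      P.mem_ring_iff, map_div₀, div_le_one₀ ((Valuation.pos_iff _).2 e)]

theorem sup_le (P : Place K) {s : σ → K} {s' : σ' → K} (h : mv P.ring s ≤ mv P.ring s') :
    (Finset.univ.sup fun l => P.val (s l)) ≤ Finset.univ.sup fun l => P.val (s' l) := by
  refine Finset.sup_le fun l _ => ?_
  have h1 := (le_mv _ s l).trans h
  cases isEmpty_or_nonempty σ'
  · have : s l = 0 := by simpa [mv, bot_eq_zero] using h1
    simp [this]
  · obtain ⟨m, e⟩ := ex_mv P.ring s'
    exact ((val_le P _ _).1 (e ▸ h1)).trans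
      (Finset.le_sup (f := fun l => P.val (s' l)) (Finset.mem_univ m))

theorem ch_mem {k : Type} [Field k] [Algebra k K] {ι : Type} {x : ι → K} {i : ι}
    {U : ValuationSubring K} (hk : ∀ a, algebraMap k K a ∈ U) (h : ∀ j, x j / x i ∈ U) {f : K}
    (hf : f ∈ ch k x i) : f ∈ U :=
  Algebra.adjoin_le (S := { U.toSubring with algebraMap_mem' := hk }) (range_subset_iff.2 h) hf

end MxaH

open MxaH

theorem mxa : MXA where
  mul K _ P σ σ' _ _ s s' h h' := HgH.mx_mul P h h'
  pow K _ P σ _ s m h := by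
    obtain ⟨l, -, e, hl⟩ := HgH.top P h
    rw [HgH.mx_eq P (l := l) fun j => by
      simp only [pw, map_pow]
      exact pow_le_pow_left₀ zero_le (hl j) m, e, pw, P.ord_pow, mul_neg]
  gen K _ P σ _ s l h hm := HgH.mx_eq P fun m => by
    have := (P.mem_ring_iff _).1 (hm m)
    rwa [map_div₀, div_le_one₀ ((Valuation.pos_iff _).2 h)] at this
  eqv k K _ _ _ P σ σ' _ _ s s' hk h := by
    rw [mx, mx, le_antisymm (sup_le P (h _ hk).le) (sup_le P (h _ hk).ge)]
  cmp k K _ _ _ ι σ σ' _ _ _ _ x s s' c hx h U hk := by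
    obtain ⟨i, e⟩ := ex_mv U x
    have h0 : 0 < U.valuation (x i) := (Valuation.pos_iff _).2 (hx i)
    have hc : ∀ f ∈ ch k x i, U.valuation f ≤ 1 := fun f hf =>
      (U.valuation_le_one_iff f).2 (ch_mem hk (fun j => by
        rw [← U.valuation_le_one_iff, map_div₀, div_le_one₀ h0, ← e]
        exact le_mv U x j) hf)
    obtain ⟨h1, a, ha, h2⟩ := h i
    have h3 : mv U (pw x c) = U.valuation (x i) ^ c := le_antisymm (mv_le fun j => by
      rw [pw, map_pow]
      exact pow_le_pow_left₀ zero_le (e ▸ le_mv U x j) c) (map_pow U.valuation _ _ ▸ le_mv U _ i)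
    rw [h3]
    refine le_antisymm (mv_le fun l => ?_) ?_
    · have := hc _ (h1 l.1 l.2)
      rwa [map_div₀, map_pow, div_le_one₀ (pow_pos h0 c)] at this
    · rw [← one_le_div₀ (pow_pos h0 c), ← map_one U.valuation, ← h2]
      refine U.valuation.map_sum_le fun l _ => U.valuation.map_sum_le fun m _ => ?_
      rw [map_mul, map_div₀, map_pow]
      exact (mul_le_of_le_one_left' (hc _ (ha l m))).trans
        (div_le_div_of_nonneg_right (le_mv U (tp s s') (l, m)) zero_le)

theorem htm : HTM := by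
  intro k L _ _ _ _ _ hL L' _ _ _ _ _
  have key : ∀ t : L, Transcendental k t → Transcendental k (algebraMap L L' t) ∧
      FiniteDimensional k⟮algebraMap L L' t⟯ L' ∧ Module.finrank k⟮algebraMap L L' t⟯ L' =
        Module.finrank L L' * Module.finrank k⟮t⟯ L := fun t ht => by
    have := IsFF.finiteDimensional ht
    let e : k⟮t⟯ ≃ₐ[k] k⟮algebraMap L L' t⟯ :=
      (equivMap k⟮t⟯ (IsScalarTower.toAlgHom k L L')).trans
        (equivOfEq (by rw [adjoin_map, image_singleton]; rfl))
    have : FiniteDimensional k⟮t⟯ L' := Module.Finite.trans L L'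
    refine ⟨(transcendental_algebraMap_iff (algebraMap L L').injective).2 ht,
      Module.Finite.of_equiv_equiv e.toRingEquiv (RingEquiv.refl L') rfl, ?_⟩
    rw [mul_comm, Module.finrank_mul_finrank]
    exact (Algebra.finrank_eq_of_equiv_equiv e.toRingEquiv (RingEquiv.refl L') rfl).symm
  have hL' : IsFF k L' := by
    obtain ⟨t, ht⟩ := hL.exists_transcendental
    exact .of_finiteDimensional (key t ht).1 (key t ht).2.1
  refine ⟨hL', fun σ _ z => ?_⟩
  by_cases h : z = 0
  · have : up L' z = 0 := by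
      funext l
      simp [up, h]
    rw [this]
    simp [ht, h, HgH.mx_zero]
  have h' : up L' z ≠ 0 := fun e => h (funext fun l =>
    (map_eq_zero (algebraMap L L')).1 (congrFun e l))
  have pr : ∀ α β : L, β ≠ 0 → ht k ![algebraMap L L' β, algebraMap L L' α] =
      Module.finrank L L' * ht k ![β, α] := fun α β hβ => by
    rw [SemiAux.ht_pair hg hβ, SemiAux.ht_pair hg ((map_ne_zero _).2 hβ), ← map_div₀]
    rcases P297.const_or_transcendental (k := k) (α / β) with ⟨c, hc⟩ | h
    · rw [hc, ← IsScalarTower.algebraMap_apply, SemiAux.ht_const, SemiAux.ht_const, mul_zero]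
    · rw [hg.deg k L hL _ h, hg.deg k L' hL' _ (key _ h).1, (key _ h).2.2, Nat.cast_mul]
  have su : ∀ a : σ → k, ∑ l, algebraMap k k (a l) • up L' z l =
      algebraMap L L' (∑ l, algebraMap k k (a l) • z l) := fun a => by
    simp [up, Algebra.smul_def, ← IsScalarTower.algebraMap_apply]
  have sp : ∀ {E : Type} [Field E] [Algebra k E] (w : σ → E) (a b : σ → k) (i : Fin 2),
      ![∑ l, algebraMap k k (b l) • w l, ∑ l, algebraMap k k (a l) • w l] i ∈
        Submodule.span k (range w) := fun w a b i => by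
    fin_cases i <;> exact Submodule.sum_mem _ fun m _ =>
      Submodule.smul_mem _ _ (Submodule.subset_span (mem_range_self m))
  refine le_antisymm ?_ ?_
  · obtain ⟨a, b, hab⟩ := hg.gen k k Unit σ (fun _ => L') (fun _ => up L' z) fun _ => h'
    obtain ⟨h1, h2⟩ := hab ()
    rw [su] at h1
    have h3 := (map_ne_zero _).1 h1
    rw [← h2, su, su, pr _ _ h3]
    exact mul_le_mul_of_nonneg_left (hg.le k L hL _ _ z _ (Function.ne_iff.2 ⟨0, h3⟩) (sp z a b))
      (Nat.cast_nonneg _)
  · obtain ⟨a, b, hab⟩ := hg.gen k k Unit σ (fun _ => L) (fun _ => z) fun _ => h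
    obtain ⟨h1, h2⟩ := hab ()
    rw [← h2, ← pr _ _ h1, ← su, ← su]
    refine hg.le k L' hL' _ _ _ _ (Function.ne_iff.2 ⟨0, ?_⟩) (sp _ a b)
    exact (su b).symm ▸ (map_ne_zero _).2 h1

end Vale.Agent.P270L
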