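import Vale.Agent.P270L.ADefs
import Vale.Agent.P277Z.FI.Box

/-!
# P270L, block A, row RESO
-/

open scoped Manifold ContDiff Topology
open Set Filter
open Vale.Agent.P272.K (Cm Chart At)
open Vale.Agent.P297 (Place)
open Vale.Agent.P277Z Vale.Agent.P277Z.Ps
open TopologicalSpace (Opens)

noncomputable section

namespace Vale.Agent.P270L

namespace ResoH

section opn

variable {n : ℕ} {W : Type} [TopologicalSpace W] {O : Opens W} {x : O}

theorem nhds_iff {p : W → Prop} : (∀ᶠ y in 𝓝 x, p y.1) ↔ ∀ᶠ y in 𝓝 x.1, p y := by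
  rw [← O.isOpen.isOpenEmbedding_subtypeVal.map_nhds_eq x]
  rfl

theorem gen_iff {p : W → Prop} : (∀ᶠ y in gen {x}, p y.1) ↔ ∀ᶠ y in gen {x.1}, p y := by
  have h : IsOpenMap (Subtype.val : O → W) := O.isOpen.isOpenMap_subtype_val
  rw [Lo.gen_pt, Lo.gen_pt, ← nhds_iff, show {y : O | p y.1} = Subtype.val ⁻¹' {y | p y} from rfl,
    ← h.preimage_interior_eq_interior_preimage continuous_subtype_val,
    ← h.preimage_closure_eq_closure_preimage continuous_subtype_val]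
  rfl

variable [ChartedSpace (Cm n) W] [IsManifold 𝓘(ℂ, Cm n) ω W]

theorem hol_iff {a : W → ℂ} : Hol n (fun y : O => a y.1) x ↔ Hol n a x.1 :=
  ⟨fun h => (hol_ext h).congr (nhds_iff.1 (.of_forall fun y => ext_val _ y)), hol_res⟩

theorem mer_iff {a : W → ℂ} : Mer n (fun y : O => a y.1) x ↔ Mer n a x.1 :=
  ⟨fun ⟨u, v, h1, h2, h3, h4⟩ => ⟨ext u, ext v, hol_ext h1, hol_ext h2,
    fun k => h3 (by simpa only [ext_val] using nhds_iff.2 k),
    gen_iff.1 (by simpa only [ext_val] using h4)⟩,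
    fun ⟨_, v, h1, h2, h3, h4⟩ => ⟨_, _, hol_res h1, hol_res h2,
      mt (nhds_iff (p := fun y => v y = 0)).1 h3, gen_iff.2 h4⟩⟩

end opn

variable {n : ℕ} {K : Type} [Field K] [Algebra ℂ K] (M : Mdl n 0 K)

/-- the fibre is open -/
def op : Opens M.W := ⟨M.F, isOpen_iff_mem_nhds.2 fun _ hx =>
  (M.fib.filter_mono (nhds_le_nhdsSet hx)).mono fun _ h => h.1 (Subsingleton.elim _ _)⟩

theorem gen_res {p : M.W → Prop} (h : ∀ᶠ y in gen M.F, p y) :
    ∀ᶠ y in gen (univ : Set (op M)), p y.1 :=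
  Lo.gen_iff.2 fun x _ => gen_iff.2 (M.at_pt h x)

/-- the fibre as a manifold -/
abbrev geo : Geo n 0 where
  W := op M
  F := univ
  cpt := isCompact_iff_isCompact_univ.1 M.cpt
  conn := (connectedSpace_iff_univ.1 (isConnected_iff_connectedSpace.1 M.conn) :)
  π := fun _ => 0
  hol := fun _ _ i => i.elim0
  fib := .of_forall fun _ => iff_of_true rfl trivial

/-- the restriction to the fibre -/
def res (hM : M.Proj) : Gm n K where
  toGeo := geo M
  val f y := M.val f y.1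
  val_add f g := (gen_res M (M.val_add f g) :)
  val_mul f g := (gen_res M (M.val_mul f g) :)
  val_const c y := M.val_const c y.1
  mer f x _ := (mer_iff (a := M.val f)).2 (M.mer f x.1 x.2)
  can f := .of_forall fun y a h1 h2 => (M.val_eq_at (x := y) (hol_ext h1)
    (gen_iff.1 (by simpa only [ext_val] using h2))).trans (ext_val a y)
  surj a ha := by
    obtain ⟨f, hf⟩ := M.surj (ext a) fun x hx => (mer_iff (O := op M) (x := ⟨x, hx⟩)).1
      (by simpa only [ext_val] using ha ⟨x, hx⟩ trivial)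
    exact ⟨f, by simpa only [ext_val] using gen_res M hf⟩
  all := rfl
  prj :=
    let ⟨L, ψ, h1, h2, h3⟩ := hM
    ⟨P277.HD.pull Subtype.val L, fun i y => ψ i y.1,
      ⟨fun i => (h1.isOpen i).preimage continuous_subtype_val, fun x _ => h1.cover x.1 x.2,
        fun i j x a b => hol_res (h1.holo i j x.1 a b), fun i j x => h1.ne_zero i j x.1,
        fun i j k x => h1.cocycle i j k x.1⟩,
      fun i x a => spsh_res (h2 i x.1 a), fun i j x => h3 i j x.1⟩

variable {M} (hM : M.Proj) (y : M.F)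

theorem O_eq : (res M hM).O ((res M hM).pt y) = M.O y :=
  Subalgebra.ext fun _ => hol_iff (O := op M) (x := y)

theorem gn_iff {P : Place K} {t : K} : (res M hM).Gn ((res M hM).pt y) P t ↔ M.Gn y P t :=
  have e := O_eq hM y
  ⟨fun h => ⟨e ▸ h.mem, h.van, h.ord, e ▸ h.le, e ▸ h.dvd, e ▸ h.loc⟩,
    fun h => ⟨e ▸ h.mem, h.van, h.ord, e ▸ h.le, e ▸ h.dvd, e ▸ h.loc⟩⟩

theorem coord {t : Fin n → K} (h : M.Coord y t) : (res M hM).Coord ((res M hM).pt y) t := by
  refine ⟨fun i => ⟨(O_eq hM y).symm ▸ (h.1 i).1, (h.1 i).2⟩, fun e he => ?_⟩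
  obtain ⟨e', h1, h2, h3⟩ := chart_fn (O := op M) (x := y) he
  have := h.2 e' h1
  rwa [jd, (h3 _ fun z i => M.val (t i) z).fderiv_eq, ← h2] at this

end ResoH

open ResoH in
/-- **RESO** -/
theorem reso : RESO := fun n K _ _ M T ι _ x hT hx => by
  classical
  obtain ⟨i, hi⟩ := Function.ne_iff.1 hx
  obtain ⟨M', -, hM, h⟩ := FI.hirA n 0 K M.toMdl M.prj T 1 (fun _ => Finset.univ.image x) hT
    fun _ => ⟨x i, Finset.mem_image_of_mem _ (Finset.mem_univ i), hi⟩
  refine ⟨res M' hM, fun y => ?_, fun y => ?_⟩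
  · obtain ⟨f, h1, h2, h3⟩ := (h y).1 0
    obtain ⟨l, -, rfl⟩ := Finset.mem_image.1 h1
    exact ⟨l, h2, fun m => (O_eq hM y).symm ▸ h3 _ (Finset.mem_image_of_mem _ (Finset.mem_univ m))⟩
  · obtain ⟨t, h1, h2⟩ := (h y).2
    refine ⟨t, coord hM y h1, fun P hP ⟨s, hs⟩ => ?_⟩
    have k : M'.On y P := ⟨s, (gn_iff hM y).1 hs⟩
    exact (h2 P k (Or.inl (hP.imp id fun a => ⟨⟨y, k⟩, a⟩))).imp fun _ => (gn_iff hM y).2

end Vale.Agent.P270L
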