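import Vale.Agent.P270L.BDefs
import Vale.Agent.P270L.T.Hg
import Mathlib.RingTheory.Valuation.LocalSubring

/-!
# P270L, block A: the degree function of a place (row VPD)
-/

open Set IntermediateField
open Vale.Agent.P297 (Place PlaceOver IsFF)

noncomputable section

namespace Vale.Agent.P270L

namespace VpdH

theorem ext_val {L Ω : Type} [Field L] [Field Ω] (f : L →+* Ω) (Q : ValuationSubring L) :
    ∃ A : ValuationSubring Ω, ∀ x, f x ∈ A ↔ x ∈ Q := by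
  obtain ⟨A, h1, h2⟩ := IsLocalRing.exists_factor_valuationRing (f.comp Q.subtype)
  refine ⟨A, fun x => ⟨fun hx => (Q.mem_or_inv_mem x).elim id fun h => ?_, fun hx => h1 ⟨x, hx⟩⟩⟩
  rcases eq_or_ne x 0 with rfl | h0
  · exact zero_mem _
  obtain ⟨y, hy⟩ := (h2.map_nonunit ⟨_, h⟩ (IsUnit.of_mul_eq_one ⟨_, hx⟩
    (Subtype.ext (by simp [h0])))).exists_right_inv
  have h3 : x⁻¹ * y = 1 := congrArg Subtype.val hy
  rw [(inv_mul_eq_one₀ h0).1 h3]
  exact y.2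

theorem top {K : Type} [Field K] (V : ValuationSubring K) {σ : Type} [Fintype σ] {s : σ → K}
    (hs : s ≠ 0) : ∃ l, s l ≠ 0 ∧ mv V s = V.valuation (s l) := by
  obtain ⟨m, hm⟩ := Function.ne_iff.1 hs
  obtain ⟨l, -, e⟩ := Finset.exists_mem_eq_sup Finset.univ ⟨m, Finset.mem_univ _⟩
    fun l => V.valuation (s l)
  refine ⟨l, fun h => hm (V.valuation.zero_iff.1 (le_zero_iff.1 ?_)), e⟩
  exact (Finset.le_sup (f := fun l => V.valuation (s l)) (Finset.mem_univ m)).trans_eq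
    (by rw [e, h, map_zero])

theorem div_mem {K : Type} [Field K] (V : ValuationSubring K) {σ : Type} [Fintype σ] {s : σ → K}
    {a : K} (h : mv V s = V.valuation a) (l : σ) : a⁻¹ * s l ∈ V := by
  rw [← V.valuation_le_one_iff, ← div_eq_inv_mul, map_div₀]
  exact div_le_one_of_le₀ (h ▸ Finset.le_sup (f := fun l => V.valuation (s l)) (Finset.mem_univ l))
    zero_le

theorem ht_pow {k L : Type} [Field k] [Field L] [Algebra k L] [IsAlgClosed k] [CharZero k]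
    [IsFF k L] {σ : Type} [Fintype σ] {z : σ → L} (hz : z ≠ 0) (m : ℕ) :
    ht k (pw z m) = m * ht k z := by
  rw [ht, ht, ← nsmul_eq_mul, smul_finsum' _ (HgH.fin z)]
  refine finsum_congr fun P => ?_
  obtain ⟨l, -, e, h⟩ := HgH.top P.1 hz
  rw [HgH.mx_eq P.1 (l := l) fun j => by
    simp only [pw, map_pow]
    exact pow_le_pow_left' (h j) m, e, pw, P.1.ord_pow]
  simp

section norm

variable (k L : Type) {Ω : Type} [Field k] [Field L] [Field Ω] [Algebra k L] [Algebra L Ω]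
  [Algebra k Ω] [IsScalarTower k L Ω] {σ σ' : Type} [Fintype σ] [Fintype σ']

/-- the normalised height -/
def hn (w : σ → Ω) : ℚ :=
  ht k (fun l => (⟨w l, subset_adjoin L (range w) ⟨l, rfl⟩⟩ : adjoin L (range w))) /
    Module.finrank L (adjoin L (range w))

theorem hn_zero : hn k L (0 : σ → Ω) = 0 := by
  have h : ht k (0 : σ → adjoin L (range (0 : σ → Ω))) = 0 :=
    finsum_eq_zero_of_forall_eq_zero fun P => HgH.mx_zero P.1
  rw [hn, div_eq_zero_iff, Int.cast_eq_zero]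
  exact Or.inl ((congrArg (ht k) (funext fun _ => Subtype.ext rfl)).trans h)

variable {k L} [IsAlgClosed k] [CharZero k] [IsFF k L] [Algebra.IsAlgebraic L Ω]

theorem fin_adj {S : Set Ω} (hS : S.Finite) : FiniteDimensional L (adjoin L S) :=
  have := hS.to_subtype
  finiteDimensional_adjoin fun x _ => Algebra.IsIntegral.isIntegral x

theorem hn_eq (hT : HTM) (L' : IntermediateField L Ω) [FiniteDimensional L L'] (z : σ → L') :
    hn k L (fun l => (z l : Ω)) * Module.finrank L L' = ht k z := by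
  obtain ⟨w, hw⟩ : ∃ w : σ → Ω, w = fun l => (z l : Ω) := ⟨_, rfl⟩
  have hle : adjoin L (range w) ≤ L' := adjoin_le_iff.2 (range_subset_iff.2 fun l => hw ▸ (z l).2)
  have := fin_adj (L := L) (finite_range w)
  let : Algebra (adjoin L (range w)) L' := (IntermediateField.inclusion hle).toAlgebra
  have : IsScalarTower k (adjoin L (range w)) L' := .of_algebraMap_eq fun _ => rfl
  have : IsScalarTower L (adjoin L (range w)) L' := .of_algebraMap_eq fun _ => rfl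
  have := Module.Finite.right L (adjoin L (range w)) L'
  have h1 := (hT k _ (hT k L ‹_› (adjoin L (range w))).1 L').2 σ
    fun l => ⟨w l, subset_adjoin L (range w) ⟨l, rfl⟩⟩
  have h2 : (Module.finrank L (adjoin L (range w)) : ℚ) ≠ 0 := Nat.cast_ne_zero.2
    Module.finrank_pos.ne'
  replace h1 := (congrArg (ht k) (funext fun l => Subtype.ext (congrFun hw l).symm : z = _)).trans h1
  rw [← hw, h1, hn, ← Module.finrank_mul_finrank L (adjoin L (range w)) L']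
  push_cast
  field_simp

theorem ex_fin (hT : HTM) (w : σ → Ω) (w' : σ' → Ω) : ∃ (L' : IntermediateField L Ω)
    (_ : FiniteDimensional L L') (_ : IsFF k L') (z : σ → L') (z' : σ' → L'),
    w = (fun l => (z l : Ω)) ∧ w' = (fun l => (z' l : Ω)) ∧ (0 : ℚ) < Module.finrank L L' :=
  have := fin_adj (L := L) ((finite_range w).union (finite_range w'))
  ⟨_, this, (hT k L ‹_› _).1, fun l => ⟨w l, subset_adjoin L _ (Or.inl ⟨l, rfl⟩)⟩,
    fun l => ⟨w' l, subset_adjoin L _ (Or.inr ⟨l, rfl⟩)⟩, rfl, rfl,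
    Nat.cast_pos.2 Module.finrank_pos⟩

omit [Fintype σ] [Algebra.IsAlgebraic L Ω] in
theorem coe_ne {L' : IntermediateField L Ω} {z : σ → L'} (h : (fun l => (z l : Ω)) ≠ 0) : z ≠ 0 :=
  fun e => h (e ▸ rfl)

theorem hn_nn (hT : HTM) (w : σ → Ω) : 0 ≤ hn k L w := by
  obtain ⟨L', _, _, z, -, rfl, -, h⟩ := ex_fin (k := k) (L := L) hT w w
  rw [← mul_nonneg_iff_of_pos_right h, hn_eq hT]
  exact_mod_cast hg.nn k L' ‹_› σ z

theorem hn_smul (hT : HTM) (w : σ → Ω) {c : Ω} (hc : c ≠ 0) :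
    hn k L (fun l => c * w l) = hn k L w := by
  obtain ⟨L', _, _, z, a, rfl, e, h⟩ := ex_fin (k := k) (L := L) hT w fun _ : Unit => c
  obtain rfl := congrFun e ()
  refine mul_right_cancel₀ h.ne' ((hn_eq hT L' fun l => a () * z l).trans ?_)
  rw [hn_eq hT, hg.smul k L' ‹_› σ z _ fun h => hc (by simp [h])]

theorem hn_mul (hT : HTM) {w : σ → Ω} {w' : σ' → Ω} (hw : w ≠ 0) (hw' : w' ≠ 0) :
    hn k L (tp w w') = hn k L w + hn k L w' := by
  obtain ⟨L', _, _, z, z', rfl, rfl, h⟩ := ex_fin (k := k) (L := L) hT w w'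
  refine mul_right_cancel₀ h.ne' ((hn_eq hT L' (tp z z')).trans ?_)
  rw [add_mul, hn_eq hT, hn_eq hT]
  exact_mod_cast hg.mul k L' ‹_› σ σ' z z' (coe_ne hw) (coe_ne hw')

theorem hn_pow (hT : HTM) {w : σ → Ω} (hw : w ≠ 0) (m : ℕ) : hn k L (pw w m) = m * hn k L w := by
  obtain ⟨L', _, _, z, -, rfl, -, h⟩ := ex_fin (k := k) (L := L) hT w w
  refine mul_right_cancel₀ h.ne' ((hn_eq hT L' (pw z m)).trans ?_)
  rw [mul_assoc, hn_eq hT]
  exact_mod_cast ht_pow (coe_ne hw) m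

omit [Algebra.IsAlgebraic L Ω] in
theorem sup_le {L' : IntermediateField L Ω} (z : σ → L') (z' : σ' → L') (Q : Place L')
    {A : ValuationSubring Ω} (hA : ∀ x, algebraMap L' Ω x ∈ A ↔ x ∈ Q.ring)
    (h : ∀ l, ∃ m, ∃ a ∈ A, (z l : Ω) = a * z' m) :
    (Finset.univ.sup fun l => Q.val (z l)) ≤ Finset.univ.sup fun l => Q.val (z' l) := by
  refine Finset.sup_le fun l _ => ?_
  obtain ⟨m, a, ha, e⟩ := h l
  refine le_trans ?_ (Finset.le_sup (f := fun l => Q.val (z' l)) (Finset.mem_univ m))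
  by_cases h0 : z' m = 0
  · rw [show z l = 0 from Subtype.ext (by simp [e, h0]), h0]
  have h1 : (z' m : Ω) ≠ 0 := fun h => h0 (Subtype.ext h)
  have h2 := (Q.mem_ring_iff _).1 ((hA (z l / z' m)).1 (by simpa [e, h1] using ha))
  rwa [map_div₀, div_le_one₀ (zero_lt_iff.2 (Q.val.ne_zero_iff.2 h0))] at h2

theorem hn_eqv (hT : HTM) {w : σ → Ω} {w' : σ' → Ω}
    (h : ∀ A : ValuationSubring Ω, (∀ a, algebraMap k Ω a ∈ A) →
      (∀ l, ∃ m, ∃ a ∈ A, w l = a * w' m) ∧ ∀ l, ∃ m, ∃ a ∈ A, w' l = a * w m) :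
    hn k L w = hn k L w' := by
  obtain ⟨L', _, _, z, z', rfl, rfl, h1⟩ := ex_fin (k := k) (L := L) hT w w'
  refine mul_right_cancel₀ h1.ne' ?_
  rw [hn_eq hT, hn_eq hT, Int.cast_inj]
  refine finsum_congr fun Q => ?_
  obtain ⟨A, hA⟩ := ext_val (algebraMap L' Ω) Q.1.ring
  obtain ⟨h2, h3⟩ := h A fun a => (hA _).2 (Q.2 a)
  rw [mx, mx, (sup_le z z' Q.1 hA h2).antisymm (sup_le z' z Q.1 hA h3)]

end norm

section place

variable {K Ω : Type} [Field K] [Field Ω] {V : ValuationSubring K} (ψ : V →+* Ω)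

open Classical in
/-- the extension by zero -/
def ez (f : K) : Ω := if h : f ∈ V then ψ ⟨f, h⟩ else 0

theorem ez_eq {f : K} (h : f ∈ V) : ez ψ f = ψ ⟨f, h⟩ := dif_pos h

theorem ez_mul {f g : K} (hf : f ∈ V) (hg : g ∈ V) : ez ψ (f * g) = ez ψ f * ez ψ g := by
  rw [ez_eq ψ hf, ez_eq ψ hg, ez_eq ψ (mul_mem hf hg), ← map_mul]
  rfl

theorem ez_pow {f : K} (hf : f ∈ V) (m : ℕ) : ez ψ (f ^ m) = ez ψ f ^ m := by
  rw [ez_eq ψ hf, ez_eq ψ (pow_mem hf m), ← map_pow]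
  rfl

theorem ez_ne {f : K} (h0 : f ≠ 0) (hf : f ∈ V) (hf' : f⁻¹ ∈ V) : ez ψ f ≠ 0 :=
  left_ne_zero_of_mul_eq_one (b := ez ψ f⁻¹) (by
    rw [← ez_mul ψ hf hf', mul_inv_cancel₀ h0, ez_eq ψ (one_mem _)]
    exact map_one ψ)

/-- `τ` normalises `s` -/
def Nr {σ : Type} (s : σ → K) (τ : K) : Prop :=
  (∀ l, τ * s l ∈ V) ∧ (fun l => ez ψ (τ * s l)) ≠ 0

theorem nr_of {σ : Type} [Fintype σ] {s : σ → K} {a : K} (ha : a ≠ 0) (hs : s ≠ 0)
    (h : mv V s = V.valuation a) : Nr ψ s a⁻¹ := by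
  obtain ⟨l, h1, h2⟩ := top V hs
  refine ⟨div_mem V h, Function.ne_iff.2 ⟨l, ez_ne ψ (by simp [ha, h1]) (div_mem V h l) ?_⟩⟩
  rw [mul_inv, inv_inv, mul_comm]
  exact div_mem V (s := fun _ : Unit => a) (by simpa [mv] using h.symm.trans h2) ()

/-- the composite valuation ring -/
def cv (hψ : ∀ f : V, ψ f ≠ 0 → (f : K)⁻¹ ∈ V) (A : ValuationSubring Ω) : ValuationSubring K where
  toSubring := (A.toSubring.comap ψ).map V.subtype
  mem_or_inv_mem' f := by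
    rcases eq_or_ne f 0 with rfl | h0
    · exact Or.inl (Subring.zero_mem _)
    by_cases hf : f ∈ V
    · refine or_iff_not_imp_left.2 fun h => ?_
      have h1 : ψ ⟨f, hf⟩ ∉ A := fun e => h ⟨⟨f, hf⟩, e, rfl⟩
      have h2 := hψ ⟨f, hf⟩ fun e => h1 (e ▸ zero_mem _)
      have h3 : ψ ⟨_, h2⟩ = (ψ ⟨f, hf⟩)⁻¹ := eq_inv_of_mul_eq_one_left (by
        rw [← map_mul, ← map_one ψ]
        exact congrArg _ (Subtype.ext (inv_mul_cancel₀ h0)))
      exact ⟨⟨_, h2⟩, show ψ _ ∈ A from h3 ▸ (A.mem_or_inv_mem _).resolve_left h1, rfl⟩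
    · have h1 := (V.mem_or_inv_mem f).resolve_left hf
      have h2 : ψ ⟨_, h1⟩ = 0 := by_contra fun h => hf (by simpa using hψ _ h)
      exact Or.inr ⟨⟨_, h1⟩, show ψ _ ∈ A from h2 ▸ zero_mem _, rfl⟩

theorem cv_le (hψ : ∀ f : V, ψ f ≠ 0 → (f : K)⁻¹ ∈ V) (A : ValuationSubring Ω) {σ σ' : Type}
    [Fintype σ] [Fintype σ'] {s : σ → K} {s' : σ' → K} (hs' : s' ≠ 0) {τ : K}
    (hτ : ∀ m, τ * s' m ∈ V) (h : mv (cv ψ hψ A) s = mv (cv ψ hψ A) s') (l : σ) :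
    ∃ m, ∃ a ∈ A, ez ψ (τ * s l) = a * ez ψ (τ * s' m) := by
  obtain ⟨m, h1, h2⟩ := top (cv ψ hψ A) hs'
  obtain ⟨a, h3, h4⟩ := div_mem _ (h.trans h2) l
  refine ⟨m, ψ a, h3, ?_⟩
  rw [← ez_eq ψ a.2, ← ez_mul ψ a.2 (hτ m), show (a : K) = _ from h4]
  congr 1
  field_simp

end place

end VpdH

open VpdH in
theorem vpd_of (hT : HTM) : VPD := by
  intro k K _ _ _ _ _ L Ω _ _ _ _ _ _ _ _ V hk ψ h1 h2
  let d : ∀ {σ : Type} [Fintype σ], (σ → K) → ℚ := fun s =>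
    hn k L fun l => ez ψ (Classical.epsilon (Nr ψ s) * s l)
  have hd : ∀ {σ : Type} [Fintype σ] {s : σ → K} {τ : K}, Nr ψ s τ →
      d s = hn k L fun l => ez ψ (τ * s l) := fun {σ} _ s τ h => by
    obtain ⟨h3, h4⟩ := Classical.epsilon_spec ⟨τ, h⟩
    obtain ⟨l, hl⟩ := Function.ne_iff.1 h.2
    have h5 := h2 ⟨_, h.1 l⟩ (by rwa [← ez_eq ψ (h.1 l)])
    have h6 : τ * s l ≠ 0 := fun e => hl (by rw [e, ez_eq ψ (zero_mem _)]; exact map_zero ψ)
    have h7 : ∀ m, ez ψ (Classical.epsilon (Nr ψ s) * s m) =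
        ez ψ (Classical.epsilon (Nr ψ s) * s l * (τ * s l)⁻¹) * ez ψ (τ * s m) := fun m => by
      rw [← ez_mul ψ (mul_mem (h3 l) h5) (h.1 m)]
      congr 1
      have := left_ne_zero_of_mul h6
      have := right_ne_zero_of_mul h6
      field_simp
    simp only [d, h7]
    exact hn_smul hT _ fun e => h4 (funext fun m => by rw [h7, e, zero_mul]; rfl)
  have hn0 : ∀ {σ : Type} [Fintype σ] {s : σ → K}, s ≠ 0 → ∃ τ, Nr ψ s τ := fun hs =>
    let ⟨_, h3, h4⟩ := top V hs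
    ⟨_, nr_of ψ h3 hs h4⟩
  have hz : ∀ (σ : Type) [Fintype σ], d (0 : σ → K) = 0 := fun σ _ => by
    refine (congrArg (hn k L) (funext fun l => ?_)).trans (hn_zero k L)
    rw [Pi.zero_apply, mul_zero, ez_eq ψ (zero_mem _)]
    exact map_zero ψ
  have hv : ∀ {σ : Type} [Fintype σ] {s : σ → K}, mv V s = 0 ↔ s = 0 := fun {σ} _ s => by
    refine ⟨fun h => by_contra fun hs => ?_, fun h => le_zero_iff.1 (Finset.sup_le fun l _ => by simp [h])⟩
    obtain ⟨l, h3, h4⟩ := top V hs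
    exact h3 (V.valuation.zero_iff.1 (h4.symm.trans h))
  refine ⟨⟨d, fun s => hn_nn hT _, fun s s' hs hs' => ?_, fun s m hs => ?_, fun s s' h => ?_⟩,
    fun σ _ s τ h L' _ z hz e => ?_⟩
  · obtain ⟨τ, h3, h4⟩ := hn0 hs
    obtain ⟨τ', h5, h6⟩ := hn0 hs'
    have h7 : (fun l => ez ψ (τ * τ' * tp s s' l)) =
        tp (fun l => ez ψ (τ * s l)) fun l => ez ψ (τ' * s' l) := funext fun l => by
      rw [tp, tp, mul_mul_mul_comm, ez_mul ψ (h3 _) (h5 _)]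
    obtain ⟨l, hl⟩ := Function.ne_iff.1 h4
    obtain ⟨m, hm⟩ := Function.ne_iff.1 h6
    rw [hd ⟨h3, h4⟩, hd ⟨h5, h6⟩, ← hn_mul hT h4 h6, ← h7]
    exact hd ⟨fun l => by rw [tp, mul_mul_mul_comm]; exact mul_mem (h3 _) (h5 _),
      h7 ▸ Function.ne_iff.2 ⟨(l, m), mul_ne_zero hl hm⟩⟩
  · obtain ⟨τ, h3, h4⟩ := hn0 hs
    have h7 : (fun l => ez ψ (τ ^ m * pw s m l)) = pw (fun l => ez ψ (τ * s l)) m :=
      funext fun l => by rw [pw, pw, ← mul_pow, ez_pow ψ (h3 _)]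
    obtain ⟨l, hl⟩ := Function.ne_iff.1 h4
    rw [hd ⟨h3, h4⟩, ← hn_pow hT h4, ← h7]
    exact hd ⟨fun l => by rw [pw, ← mul_pow]; exact pow_mem (h3 _) m,
      h7 ▸ Function.ne_iff.2 ⟨l, pow_ne_zero m hl⟩⟩
  · by_cases hs : s = 0
    · rw [hv.1 ((h V hk).symm.trans (hv.2 hs)), hs, hz, hz]
    have hs' : s' ≠ 0 := fun e => hs (hv.1 ((h V hk).trans (hv.2 e)))
    obtain ⟨l, h3, h4⟩ := top V hs
    have h5 := nr_of ψ h3 hs h4
    have h6 := nr_of ψ h3 hs' ((h V hk).symm.trans h4)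
    rw [hd h5, hd h6]
    refine hn_eqv hT fun A hA => ?_
    have h7 := h (cv ψ h2 A) fun a => ⟨⟨_, hk a⟩, show ψ _ ∈ A from h1 a ▸ hA a, rfl⟩
    exact ⟨cv_le ψ h2 A hs' h6.1 h7, cv_le ψ h2 A hs h5.1 h7.symm⟩
  · have h3 : (fun l => ez ψ (τ * s l)) = fun l => (z l : Ω) := funext fun l => by
      rw [e, ez_eq ψ (h l)]
    rw [← hn_eq hT L' z, ← h3, ← hd ⟨h, fun h4 => hz (funext fun l =>
      Subtype.ext (congrFun (h3.symm.trans h4) l))⟩]

end Vale.Agent.P270L
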